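import Vale.Agent.P281.H225.KC.Id
import Vale.Agent.P281.H308.Bir.Inv

/-!
# P281, class C (helper225), KC1: families of forms controlled by periods descend from a
modification
-/

open scoped Manifold ContDiff Topology ENNReal NNReal
open Set Filter Metric Module MeasureTheory

namespace Vale.Agent.P281.H225.KC

open Vale.Agent.P281 Vale.Agent.P281.MF Vale.Agent.P281.ISO Vale.Agent.P281.ELL
open Vale.Agent.P281.H713
open Vale.Agent.P281.H64 (Cm)
open Vale.Agent.P281.H308.Bir (inv inv_u u_inv tendsto_inv holV_of_inv)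

set_option linter.unusedSectionVars false

noncomputable section

/-- the bound of the integrals, on open subsets of `ℂ^d` -/
def NormO {E E' : Type} [NormedAddCommGroup E] [NormedSpace ℂ E]
    [NormedAddCommGroup E'] [NormedSpace ℂ E']
    {X Y : Type} [TopologicalSpace X] [ChartedSpace E X]
    [TopologicalSpace Y] [ChartedSpace E' Y]
    {V : Type} [NormedAddCommGroup V] [InnerProductSpace ℂ V] [FiniteDimensional ℂ V]
    {n m d b t : ℕ} (f : X → Y) (M : ℕ)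
    (Q : (Fin n → ℝ) → (Fin n → ℝ) → ℝ) (s : ℕ) (B : Fin b → Matrix (Fin m) (Fin m) ℝ)
    (e : Fin b → ℕ) {ι : Type} (U : ι → Set Y)
    (π : ι → Y → ((Fin n → ℝ) ≃L[ℝ] V)) (p : ι → Y → Fin b → Fin m → ℂ)
    (η : ι → Fin t → X → (Fin d → E) → ℂ) : Prop :=
  ∃ A : ℝ, ∀ a i (q : (Fin d → ℂ) → X) (O : Set (Fin d → ℂ)) (y : Y), IsOpen O →
    (∀ v ∈ O, ContMDiffAt 𝓘(ℂ, Fin d → ℂ) 𝓘(ℂ, E) ω q v) → InjOn q O → (∀ v ∈ O, f (q v) = y) →
    y ∈ U a → ∀ G : V ≃L[ℂ] V, (∀ x x', (inner ℂ (G (π a y x)) (G (π a y x'))).im = Q x x') →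
    (∫⁻ v in O, ‖pull E (η a i) q v‖ₑ ^ (2 / (M : ℝ))) ^ M *
        ‖(G : V →L[ℂ] V).det‖ₑ ^ (2 * s) ≤
      ENNReal.ofReal (A * periodNorm B e (p a y))

section chain
variable {E₁ E₂ : Type} [NormedAddCommGroup E₁] [NormedSpace ℂ E₁]
  [NormedAddCommGroup E₂] [NormedSpace ℂ E₂]
variable {X₁ X₂ : Type} [TopologicalSpace X₁] [ChartedSpace E₁ X₁]
  [TopologicalSpace X₂] [ChartedSpace E₂ X₂]

theorem De_comp {d : ℕ} {ζ : Fin d → X₂ → ℂ} {g : X₁ → X₂} {x : X₁}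
    (hg : MDifferentiableAt 𝓘(ℂ, E₁) 𝓘(ℂ, E₂) g x) (hζ : ∀ k, HolV E₂ (ζ k) (g x))
    (ξ : Fin d → E₁) :
    De E₁ (fun k z => ζ k (g z)) x ξ =
      De E₂ ζ (g x) (fun l => mfderiv 𝓘(ℂ, E₁) 𝓘(ℂ, E₂) g x (ξ l)) := by
  unfold De
  congr 1
  ext k l
  exact mfderiv_comp_apply x (g := ζ k) (f := g)
    (ContMDiffAt.mdifferentiableAt (hζ k) (by simp)) hg (ξ l)

end chain

variable {p d : ℕ} {X X₁ Y : Type} [TopologicalSpace X] [ChartedSpace (Cm (p + d)) X]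
  [IsManifold 𝓘(ℂ, Cm (p + d)) ω X] [TopologicalSpace X₁] [ChartedSpace (Cm (p + d)) X₁]
  [IsManifold 𝓘(ℂ, Cm (p + d)) ω X₁] [TopologicalSpace Y] [ChartedSpace (Cm p) Y]
  [IsManifold 𝓘(ℂ, Cm p) ω Y] {f : X → Y} {u : X₁ → X} {N : Set X}

/-- the inverse is holomorphic off `N` -/
theorem contMDiffAt_inv (h : H308.Bir.Mod (n := p + d) u N) {x : X} (hx : x ∉ N) :
    ContMDiffAt 𝓘(ℂ, Cm (p + d)) 𝓘(ℂ, Cm (p + d)) ω (inv h) x := by
  obtain ⟨z, rfl⟩ := h.surj x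
  have hz : inv h (u z) = z := inv_u h hx
  rw [contMDiffAt_iff_target]
  refine ⟨?_, ?_⟩
  · show Tendsto _ _ _
    rw [hz]
    exact tendsto_inv h hx
  · rw [hz]
    have h1 : HolV (Cm (p + d)) (chartAt (Cm (p + d)) z : X₁ → Cm (p + d)) z :=
      HolV.chart (mem_chart_source _ z)
    have h2 := holV_of_inv h hx h1
    exact h2

theorem u_inv_mfderiv (hu : ∀ z, HolM (Cm (p + d)) (Cm (p + d)) u z)
    (h : H308.Bir.Mod (n := p + d) u N) {x : X} (hx : x ∉ N) (ξ : Cm (p + d)) :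
    mfderiv 𝓘(ℂ, Cm (p + d)) 𝓘(ℂ, Cm (p + d)) u (inv h x)
      (mfderiv 𝓘(ℂ, Cm (p + d)) 𝓘(ℂ, Cm (p + d)) (inv h) x ξ) = ξ := by
  have h1 := mfderiv_comp_apply x (g := u) (f := inv h)
    (ContMDiffAt.mdifferentiableAt (hu _) (by simp))
    ((contMDiffAt_inv h hx).mdifferentiableAt (by simp)) ξ
  have h2 : u ∘ inv h = id := funext fun z => u_inv h z
  rw [h2, mfderiv_id] at h1
  exact h1.symm

/-- `inv` preserves vertical vectors -/
theorem vert_inv (hf : ∀ x, HolM (Cm (p + d)) (Cm p) f x) (h : H308.Bir.Mod (n := p + d) u N)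
    {x : X} (hx : x ∉ N) {ξ : Cm (p + d)} :
    dM (Cm (p + d)) (Cm p) (fun z => f (u z)) (inv h x)
      (mfderiv 𝓘(ℂ, Cm (p + d)) 𝓘(ℂ, Cm (p + d)) (inv h) x ξ) = dM (Cm (p + d)) (Cm p) f x ξ := by
  have h1 := mfderiv_comp_apply x (g := fun z => f (u z)) (f := inv h)
    (ContMDiffAt.mdifferentiableAt (ContMDiffAt.comp (g := f) (f := u) _ (hf _) (h.hol _))
      (by simp))
    ((contMDiffAt_inv h hx).mdifferentiableAt (by simp)) ξ
  have h2 : (fun z => f (u z)) ∘ inv h = f := funext fun z => by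
    show f (u (inv h z)) = f z
    rw [u_inv h z]
  rw [h2] at h1
  exact h1.symm

/-- the form on `X ∖ N` -/
def et0 (h : H308.Bir.Mod (n := p + d) u N) {t : ℕ} (η : Fin t → X₁ → (Fin d → Cm (p + d)) → ℂ)
    (i : Fin t) (x : X) (ξ : Fin d → Cm (p + d)) : ℂ :=
  η i (inv h x) fun l => mfderiv 𝓘(ℂ, Cm (p + d)) 𝓘(ℂ, Cm (p + d)) (inv h) x (ξ l)

theorem locF_et0 {t M : ℕ} (hf : ∀ x, HolM (Cm (p + d)) (Cm p) f x)
    (h : H308.Bir.Mod (n := p + d) u N) {η : Fin t → X₁ → (Fin d → Cm (p + d)) → ℂ} {x : X}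
    (hx : x ∉ N) (hη : LocF (Cm (p + d)) (Cm p) (fun z => f (u z)) M η (inv h x)) :
    LocF (Cm (p + d)) (Cm p) f M (et0 h η) x := by
  obtain ⟨z, rfl⟩ := h.surj x
  have hz : inv h (u z) = z := inv_u h hx
  rw [hz] at hη
  obtain ⟨ζ, c, hζ, hc, hev⟩ := hη
  refine ⟨fun k x => ζ k (inv h x), fun i x => c i (inv h x),
    ⟨fun k => holV_of_inv h hx (hζ.1 k), fun ξ h1 h2 => ?_⟩, fun i => holV_of_inv h hx (hc i), ?_⟩
  · have h3 : mfderiv 𝓘(ℂ, Cm (p + d)) 𝓘(ℂ, Cm (p + d)) (inv h) (u z) ξ = 0 := by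
      have h4 := vert_inv (f := f) hf h hx (ξ := ξ)
      have h1' : dM (Cm (p + d)) (Cm p) f (u z) ξ = 0 := h1
      rw [h1', hz] at h4
      refine hζ.2 _ h4 fun k => ?_
      have h5 := mfderiv_comp_apply (u z) (g := ζ k) (f := inv h)
        (ContMDiffAt.mdifferentiableAt (by rw [hz]; exact hζ.1 k) (by simp))
        ((contMDiffAt_inv h hx).mdifferentiableAt (by simp)) ξ
      have h6 := h2 k
      rw [hz] at h5
      exact h5.symm.trans h6
    have h7 := u_inv_mfderiv h.hol h hx ξ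
    rw [h3] at h7
    rw [← h7]
    exact map_zero _
  · have h1 : ∀ᶠ z' in 𝓝 z, ∀ k, HolV (Cm (p + d)) (ζ k) z' :=
      (Filter.eventually_all).2 fun l => HolV.eventually (hζ.1 l)
    filter_upwards [(tendsto_inv h hx).eventually (hev.and h1),
      h.nclosed.isOpen_compl.mem_nhds hx] with x' hx' hxN i ξ hξ
    have h2 := hx'.1 i (fun l => mfderiv 𝓘(ℂ, Cm (p + d)) 𝓘(ℂ, Cm (p + d)) (inv h) x' (ξ l))
      (fun l => (vert_inv (f := f) hf h hxN).trans (hξ l))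
    rw [De_comp ((contMDiffAt_inv h hxN).mdifferentiableAt (by simp)) hx'.2]
    exact h2

theorem clm_sum {d : ℕ} (A : Cm d →L[ℂ] ℂ) (ξ : Cm d) :
    A ξ = ∑ l, A (Pi.single l 1) * ξ l := by
  have h1 : ξ = ∑ l, ξ l • (Pi.single l (1 : ℂ) : Cm d) := by
    funext j
    simp [Finset.sum_apply, Pi.single_apply]
  conv_lhs => rw [h1]
  rw [map_sum]
  refine Finset.sum_congr rfl fun l _ => ?_
  rw [map_smul, smul_eq_mul, mul_comm]

/-- the fibre coordinates of a polydisc which is not immersed -/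
theorem De_polydisc {q : Cm d → X} {v : Cm d} {ζ : Fin d → X → ℂ} {ξ : Cm d} (hξ : ξ ≠ 0)
    (h0 : mfderiv 𝓘(ℂ, Cm d) 𝓘(ℂ, Cm (p + d)) q v ξ = 0) :
    De (Cm (p + d)) ζ (q v) (fun l => mfderiv 𝓘(ℂ, Cm d) 𝓘(ℂ, Cm (p + d)) q v (Pi.single l 1)) =
      0 := by
  unfold De
  refine Matrix.exists_mulVec_eq_zero_iff.1 ⟨ξ, hξ, ?_⟩
  funext k
  rw [Matrix.mulVec, dotProduct]
  simp only [Matrix.of_apply, Pi.zero_apply]
  have h2 : ∑ l, J.dif (Cm (p + d)) (ζ k) (q v)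
      (mfderiv 𝓘(ℂ, Cm d) 𝓘(ℂ, Cm (p + d)) q v (Pi.single l 1)) * ξ l =
      J.dif (Cm (p + d)) (ζ k) (q v) (mfderiv 𝓘(ℂ, Cm d) 𝓘(ℂ, Cm (p + d)) q v ξ) :=
    (clm_sum ((J.dif (Cm (p + d)) (ζ k) (q v)).comp
      (mfderiv 𝓘(ℂ, Cm d) 𝓘(ℂ, Cm (p + d)) q v : Cm d →L[ℂ] Cm (p + d))) ξ).symm
  rw [h2, h0]
  exact map_zero _

/-- the fibres of `f` are not contained in `N` near any point -/
theorem fib_dense (hf : ∀ x, HolM (Cm (p + d)) (Cm p) f x)
    (e₀ : Cm (p + d) ≃L[ℂ] (Cm p × Cm d)) {ζ : Fin d → X → ℂ} {x : X}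
    (hζ : IsFibreChart (Cm (p + d)) (Cm p) f ζ x)
    (hnull : ∀ (q : Cm d → X) (v₀ : Cm d) (r : ℝ), IsPolydisc (Cm (p + d)) f q v₀ r →
      f (q v₀) = f x → volume {v | v ∈ ball v₀ r ∧ q v ∈ N ∧
        ∀ ξ, mfderiv 𝓘(ℂ, Cm d) 𝓘(ℂ, Cm (p + d)) q v ξ = 0 → ξ = 0} = 0) :
    ∃ᶠ z in 𝓝 x, f z = f x ∧ z ∉ N := by
  intro hcon
  obtain ⟨q, hq, hq0, hqe, hqz⟩ := exists_slice' hf e₀ (holV_vec hζ.1) (fc_inj hζ)
  have hqt : Tendsto q (𝓝 (vec ζ x)) (𝓝 x) := by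
    have := hq.continuousAt.tendsto
    rwa [hq0] at this
  have hq' : ∀ᶠ p' in 𝓝 (vec ζ x), ContMDiffAt 𝓘(ℂ, Cm d) 𝓘(ℂ, Cm (p + d)) ω q p' :=
    (contMDiffAt_iff_contMDiffAt_nhds (by simp)).1 hq
  have hζ' : ∀ᶠ p' in 𝓝 (vec ζ x), HolV (Cm (p + d)) (vec ζ) (q p') :=
    hqt.eventually (holV_vec hζ.1).eventually
  obtain ⟨r, hr, hball⟩ := Metric.eventually_nhds_iff_ball.1
    ((hqe.and hqe.eventually_nhds).and (hq'.and (hζ'.and (hqt.eventually hcon))))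
  have h1 : IsPolydisc (Cm (p + d)) f q (vec ζ x) r := by
    refine ⟨fun v hv => (hball v hv).2.1, fun v hv v' hv' he => ?_, fun v hv => ?_⟩
    · rw [← (hball v hv).1.1.2, ← (hball v' hv').1.1.2, he]
    · rw [(hball v hv).1.1.1, hq0]
  have h2 := hnull q (vec ζ x) r h1 (by rw [hq0])
  have h3 : ball (vec ζ x) r ⊆ {v | v ∈ ball (vec ζ x) r ∧ q v ∈ N ∧
      ∀ ξ, mfderiv 𝓘(ℂ, Cm d) 𝓘(ℂ, Cm (p + d)) q v ξ = 0 → ξ = 0} := by
    intro v hv
    obtain ⟨⟨b1, b2⟩, b3, b4, b5⟩ := hball v hv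
    refine ⟨hv, ?_, fun ξ hξ => ?_⟩
    · by_contra h4
      exact b5 ⟨b1.1, h4⟩
    · have h5 := (slice_fderiv b3 b4).2
      have h6 : (fun z => vec ζ (q z)) =ᶠ[𝓝 v] fun z => z := b2.mono fun z hz => hz.2
      rw [h6.fderiv_eq, fderiv_fun_id] at h5
      have h7 := congrArg (fun L : Cm d →L[ℂ] Cm d => L ξ) h5
      have h8 : ξ = dV (Cm (p + d)) (vec ζ) (q v)
        (mfderiv 𝓘(ℂ, Cm d) 𝓘(ℂ, Cm (p + d)) q v ξ) := h7
      rw [hξ] at h8
      rw [h8]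
      exact map_zero _
  have h4 : volume (ball (vec ζ x) r) = 0 := measure_mono_null h3 h2
  exact (measure_ball_pos volume (vec ζ x) hr).ne' h4

/-- **KC1** -/
theorem desc {V : Type} [NormedAddCommGroup V] [InnerProductSpace ℂ V] [FiniteDimensional ℂ V]
    {n m b t M s : ℕ} (hM0 : 0 < M) (hf : ∀ x, HolM (Cm (p + d)) (Cm p) f x)
    (h : H308.Bir.Mod (n := p + d) u N) (har : Har (Cm (p + d)) N) {S : Set Y}
    (hchart : ∀ x, f x ∉ S → ∃ ζ : Fin d → X → ℂ, IsFibreChart (Cm (p + d)) (Cm p) f ζ x)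
    (hnull : ∀ (q : Cm d → X) (v₀ : Cm d) (r : ℝ), IsPolydisc (Cm (p + d)) f q v₀ r →
      f (q v₀) ∉ S → volume {v | v ∈ ball v₀ r ∧ q v ∈ N ∧
        ∀ ξ, mfderiv 𝓘(ℂ, Cm d) 𝓘(ℂ, Cm (p + d)) q v ξ = 0 → ξ = 0} = 0)
    (hconn : ∀ y ∉ S, IsPreconnected ((fun z => f (u z)) ⁻¹' {y}))
    {Q : (Fin n → ℝ) → (Fin n → ℝ) → ℝ} {B : Fin b → Matrix (Fin m) (Fin m) ℝ}
    {w : Fin b → Fin m → ℝ} {e : Fin b → ℕ} {ι : Type} {U : ι → Set Y}
    {π : ι → Y → ((Fin n → ℝ) ≃L[ℝ] V)} {P : ι → Y → Fin b → Fin m → ℂ}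
    {η : ι → Fin t → X₁ → (Fin d → Cm (p + d)) → ℂ}
    (hC : IsPeriodForms (Cm (p + d)) (Cm p) (fun z => f (u z)) S 0 M (fun _ => 0) Q s B w e U π P η)
    (hN : NormO (E := Cm (p + d)) (E' := Cm p) (fun z => f (u z)) M Q s B e U π P η) :
    ∃ η' : ι → Fin t → X → (Fin d → Cm (p + d)) → ℂ,
      IsPeriodForms (Cm (p + d)) (Cm p) f S 0 M (fun _ => 0) Q s B w e U π P η' := by
  classical
  let e₀ : Cm (p + d) ≃L[ℂ] (Cm p × Cm d) := ContinuousLinearEquiv.ofFinrankEq (by simp)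
  have hf₁ : ∀ z, HolM (Cm (p + d)) (Cm p) (fun z => f (u z)) z := fun z =>
    ContMDiffAt.comp (g := f) (f := u) z (hf _) (h.hol _)
  have hUS : ∀ a, ∀ y ∈ U a, y ∉ S := fun a y hy => (hC.cover y).2 ⟨a, hy⟩
  have hfi : ∀ x, f (u (inv h x)) = f x := fun x => by rw [u_inv h x]
  have hloc : ∀ a z, f (u z) ∈ U a → LocF (Cm (p + d)) (Cm p) (fun z => f (u z)) M (η a) z :=
    fun a z hz => locF_iff.1 (hC.forms a z hz)
  have hext : ∀ a, ∃ η' : Fin t → X → (Fin d → Cm (p + d)) → ℂ,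
      (∀ x, f x ∈ U a → LocF (Cm (p + d)) (Cm p) f M η' x) ∧
      ∀ x, f x ∈ U a → x ∉ N → ∀ i ξ, IsVertical (Cm (p + d)) (Cm p) f x ξ →
        η' i x ξ = et0 h (η a) i x ξ := fun a =>
    forms_ext hf e₀ h.ndense har (hC.isOpen a) (fun x hx => hchart x (hUS a _ hx))
      fun x hx hxN => locF_et0 hf h hxN (hloc a _ (by rw [hfi]; exact hx))
  choose η' hη hηe using hext
  have hvi : ∀ {x}, x ∉ N → ∀ {ξ : Fin d → Cm (p + d)}, IsVertical (Cm (p + d)) (Cm p) f x ξ →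
      IsVertical (Cm (p + d)) (Cm p) (fun z => f (u z)) (inv h x)
        (fun l => mfderiv 𝓘(ℂ, Cm (p + d)) 𝓘(ℂ, Cm (p + d)) (inv h) x (ξ l)) :=
    fun hx ξ hξ l => (vert_inv hf h hx).trans (hξ l)
  have hdense : ∀ x, f x ∉ S → ∃ᶠ z in 𝓝 x, f z = f x ∧ z ∉ N := by
    intro x hx
    obtain ⟨ζ, hζ⟩ := hchart x hx
    exact fib_dense hf e₀ hζ fun q v₀ r hq hqx => hnull q v₀ r hq (by rw [hqx]; exact hx)
  refine ⟨η', {
    cover := hC.cover
    isOpen := hC.isOpen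
    hol := hC.hol
    polarized := hC.polarized
    period := hC.period
    chart := hchart
    forms := fun a x hx => locF_iff.2 (hη a x hx)
    rank := fun a y hy => ?_
    change := fun a b' y hy => ?_
    norm := ?_ }⟩
  · -- rank
    obtain ⟨x₁, hx₁, -, i₀, -, -, ⟨ξ₁, hξ₁, hne⟩, -⟩ := hC.rank a y hy
    have h1 : ∃ z, f (u z) = y ∧ z ∉ u ⁻¹' N := by
      obtain ⟨z, hz, hzN⟩ := (hdense (u x₁) (by
        have : f (u x₁) = y := hx₁
        rw [this]; exact hUS a y hy)).exists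
      refine ⟨inv h z, ?_, ?_⟩
      · rw [hfi, hz]
        exact hx₁
      · rw [mem_preimage, u_inv h z]
        exact hzN
    have hcu : Continuous u := continuous_iff_continuousAt.2 fun z => (h.hol z).continuousAt
    obtain ⟨z, ξ, hz, hzN, hξ, hne'⟩ := fib_id hf₁ e₀ (hconn y (hUS a y hy))
      (fun x hx => hloc a x (by
        have : f (u x) = y := hx
        rw [this]; exact hy)) i₀ (h.nclosed.preimage hcu) h1 ⟨x₁, ξ₁, hx₁, hξ₁, hne⟩
    have hzN' : u z ∉ N := hzN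
    have hzy : f (u z) = y := hz
    have hiz : inv h (u z) = z := inv_u h hzN'
    -- the image of the frame
    have k1 : ∀ ζ : Cm (p + d), mfderiv 𝓘(ℂ, Cm (p + d)) 𝓘(ℂ, Cm (p + d)) (inv h) (u z)
        (mfderiv 𝓘(ℂ, Cm (p + d)) 𝓘(ℂ, Cm (p + d)) u z ζ) = ζ := by
      intro ζ
      have k2 := mfderiv_comp_apply z (g := inv h) (f := u)
        ((contMDiffAt_inv h hzN').mdifferentiableAt (by simp))
        (ContMDiffAt.mdifferentiableAt (h.hol z) (by simp)) ζ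
      have k3 : inv h ∘ u =ᶠ[𝓝 z] id := by
        filter_upwards [(h.hol z).continuousAt.eventually (h.nclosed.isOpen_compl.mem_nhds hzN')]
          with z' hz'
        exact inv_u h hz'
      rw [k3.mfderiv_eq, mfderiv_id] at k2
      exact k2.symm
    have k4 : IsVertical (Cm (p + d)) (Cm p) f (u z)
        (fun l => mfderiv 𝓘(ℂ, Cm (p + d)) 𝓘(ℂ, Cm (p + d)) u z (ξ l)) := by
      intro l
      have k5 := mfderiv_comp_apply z (g := f) (f := u)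
        (ContMDiffAt.mdifferentiableAt (hf _) (by simp))
        (ContMDiffAt.mdifferentiableAt (h.hol z) (by simp)) (ξ l)
      exact k5.symm.trans (hξ l)
    refine ⟨u z, hzy, fun D hD => absurd rfl hD, i₀, Fin.elim0, Fin.elim0,
      ⟨_, k4, ?_⟩, fun s => s.elim0, Eventually.of_forall fun _ s => s.elim0,
      fun c _ => Subsingleton.elim _ _⟩
    rw [hηe a (u z) (by rw [hzy]; exact hy) hzN' i₀ _ k4]
    unfold et0
    simp only [k1]
    rw [hiz]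
    exact hne'
  · -- change
    obtain ⟨G, σ, χ, τ, h1, h2, h3⟩ := hC.change a b' y hy
    refine ⟨G, σ, χ, τ, h1, h2, fun x hx _ i ξ hξ => ?_⟩
    set K : ℂ := (G : V →L[ℂ] V).det ^ s * (∏ j, χ j ^ e j) with hK
    have h4 : ∀ x, f x = y → x ∉ N → ∀ ξ, IsVertical (Cm (p + d)) (Cm p) f x ξ →
        η' b' (τ i) x ξ = K * η' a i x ξ := by
      intro x hx hxN ξ hξ
      rw [hηe b' x (by rw [hx]; exact hy.2) hxN _ ξ hξ,
        hηe a x (by rw [hx]; exact hy.1) hxN _ ξ hξ]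
      exact h3 (inv h x) (by rw [hfi]; exact hx) (fun D hD => absurd rfl hD) i _ (hvi hxN hξ)
    obtain ⟨ζ, c, hζ, hc, hev⟩ := hη a x (by rw [hx]; exact hy.1)
    obtain ⟨c', hc', hev'⟩ := (hη b' x (by rw [hx]; exact hy.2)).chart hf e₀ hζ
    have h5 : c' (τ i) x = K * c i x := by
      have h6 : ∀ᶠ z in 𝓝 x, (f z = f x ∧ z ∉ N) → c' (τ i) z = K * c i z := by
        filter_upwards [hev, hev', fc_near hf e₀ hζ] with z b1 b2 b3 b4
        obtain ⟨b5, b6⟩ := FR_spec e₀ b3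
        have b7 := h4 z (by rw [b4.1, hx]) b4.2 _ b5
        rw [b1 _ _ b5, b2 _ _ b5, b6] at b7
        simpa using b7
      by_contra h7
      have h8 : ∀ᶠ z in 𝓝 x, c' (τ i) z ≠ K * c i z := by
        have h9 : ContinuousAt (fun z => c' (τ i) z - K * c i z) x :=
          (hc' _).continuousAt.sub (continuousAt_const.mul (hc i).continuousAt)
        exact (h9.eventually_ne (sub_ne_zero.2 h7)).mono fun z hz => sub_ne_zero.1 hz
      have h10 : f x ∉ S := by rw [hx]; exact hUS a y hy.1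
      obtain ⟨z, b1, b2, b3⟩ := ((hdense x h10).and_eventually (h6.and h8)).exists
      exact b3 (b2 b1)
    rw [hev.self_of_nhds i ξ hξ, hev'.self_of_nhds _ ξ hξ, h5, mul_assoc]
  · -- norm
    obtain ⟨A, hA⟩ := hN
    refine ⟨A, fun a i q v₀ r hq hy _ G hG => ?_⟩
    set O : Set (Cm d) := {v | v ∈ ball v₀ r ∧ q v ∉ N} with hO
    have hcont : ContinuousOn q (ball v₀ r) := fun v hv => (hq.1 v hv).continuousAt.continuousWithinAt
    have hOo : IsOpen O := hcont.isOpen_inter_preimage isOpen_ball h.nclosed.isOpen_compl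
    have hqv : ∀ v ∈ ball v₀ r, IsVertical (Cm (p + d)) (Cm p) f (q v)
        (fun l => mfderiv 𝓘(ℂ, Cm d) 𝓘(ℂ, Cm (p + d)) q v (Pi.single l 1)) := by
      intro v hv l
      refine slice_ker hf (hq.1 v hv) ?_ _
      filter_upwards [isOpen_ball.mem_nhds hv] with z hz
      rw [hq.2.2 z hz, hq.2.2 v hv]
    have h1 := hA a i (fun v => inv h (q v)) O (f (q v₀)) hOo
      (fun v hv => ContMDiffAt.comp v (g := inv h) (f := q) (contMDiffAt_inv h hv.2) (hq.1 v hv.1))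
      (fun v hv v' hv' he => hq.2.1 hv.1 hv'.1 (by
        have he' : inv h (q v) = inv h (q v') := he
        rw [← u_inv h (q v), he', u_inv h (q v')]))
      (fun v hv => by
        show f (u (inv h (q v))) = f (q v₀)
        rw [hfi, hq.2.2 v hv.1]) hy G hG
    refine le_trans (le_of_eq ?_) h1
    congr 2
    -- the pull-backs
    have h2 : ∀ v ∈ O, pull (Cm (p + d)) (η' a i) q v =
        pull (Cm (p + d)) (η a i) (fun v => inv h (q v)) v := by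
      intro v hv
      have h3 := hηe a (q v) (by rw [hq.2.2 v hv.1]; exact hy) hv.2 i _ (hqv v hv.1)
      refine Eq.trans h3 ?_
      unfold et0 pull
      congr 1
      funext l
      exact (mfderiv_comp_apply v (g := inv h) (f := q)
        ((contMDiffAt_inv h hv.2).mdifferentiableAt (by simp))
        ((hq.1 v hv.1).mdifferentiableAt (by simp)) _).symm
    have h4 : ∀ᵐ v ∂(volume.restrict (ball v₀ r)),
        ‖pull (Cm (p + d)) (η' a i) q v‖ₑ ^ (2 / (M : ℝ)) =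
        O.indicator (fun v => ‖pull (Cm (p + d)) (η a i) (fun v => inv h (q v)) v‖ₑ ^
          (2 / (M : ℝ))) v := by
      rw [ae_restrict_iff' measurableSet_ball]
      have h5 := hnull q v₀ r hq (hUS a _ hy)
      rw [measure_eq_zero_iff_ae_notMem] at h5
      filter_upwards [h5] with v hv hvb
      by_cases hvN : q v ∈ N
      · have h6 : ∃ ξ, mfderiv 𝓘(ℂ, Cm d) 𝓘(ℂ, Cm (p + d)) q v ξ = 0 ∧ ξ ≠ 0 := by
          by_contra h7
          push Not at h7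
          exact hv ⟨hvb, hvN, h7⟩
        obtain ⟨ξ, hξ, hξ0⟩ := h6
        rw [indicator_of_notMem (fun h7 => h7.2 hvN)]
        obtain ⟨ζ, c, -, -, hev⟩ := hη a (q v) (by rw [hq.2.2 v hvb]; exact hy)
        have h8 : pull (Cm (p + d)) (η' a i) q v = 0 := by
          refine (hev.self_of_nhds i _ (hqv v hvb)).trans ?_
          rw [De_polydisc hξ0 hξ, zero_pow hM0.ne', mul_zero]
        rw [h8, enorm_zero, ENNReal.zero_rpow_of_pos (by positivity)]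
      · have h6 : v ∈ O := ⟨hvb, hvN⟩
        rw [indicator_of_mem h6, h2 v h6]
    rw [lintegral_congr_ae h4, lintegral_indicator hOo.measurableSet,
      Measure.restrict_restrict hOo.measurableSet,
      inter_eq_self_of_subset_left (fun v hv => hv.1)]

end

end Vale.Agent.P281.H225.KC
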