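import Vale.Agent.P281.H225.KC.Cov
import Vale.Agent.P281.H225.KC.Desc
import Vale.Agent.P281.H511.HK.Fin

/-!
# P281, class C (helper225), KC2: the norm of the forms of project T-HK, on open sets
-/

open Set Filter Metric MeasureTheory Vale.Agent.P281 Vale.Agent.P281.H713 Vale.Agent.P272.K
open scoped Topology ContDiff Manifold ComplexConjugate ENNReal

set_option linter.unusedSectionVars false

noncomputable section

namespace Vale.Agent.P281.H225.KC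

open Vale.Agent.P281.H64.TK Vale.Agent.P281.H64.TK.TS Vale.Agent.P281.H603.K
open Vale.Agent.P281.H864.K
open Vale.Agent.P281.H511.HK
open Vale.Agent.P281.H511.TS (lint_int triv)
open Vale.Agent.P281.H603.TE (sub fsub fW idx rep exists_rep ccs sub_sigma fsub_sigma' lift_polyM
  polyIn_sub)
open Vale.Agent.P281.H603.C (PolyInA)
open Vale.Agent.P281.H225 (lint_polyA_le)
open Vale.Agent.P281.H225.C (polyInA_sub)
open Vale.Agent.P281.H83.HK (Hol2 Gen2 DetNe Fam2 volS FormsStmt Per2Stmt PullMark2Stmt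
  TwoMark2Stmt LocT)

attribute [local instance] ccs

section
variable {p d : ℕ} {Z Y : Type} [TopologicalSpace Z] [T2Space Z] [ChartedSpace (Cm (p + d)) Z]
  [IsManifold 𝓘(ℂ, Cm (p + d)) ω Z] [TopologicalSpace Y] [T2Space Y] [ChartedSpace (Cm p) Y]
  [IsManifold 𝓘(ℂ, Cm p) ω Y] {f : Z → Y} {L : LG (p := p) (d := d) f}

/-- **the norm**, on open sets -/
theorem lint_etaH {N : ℕ} {D : IX L → Cm p × Cm d → ℂ} (hD : IsND L N D)
    (hf : ContMDiff 𝓘(ℂ, Cm (p + d)) 𝓘(ℂ, Cm p) ω f) (hN : 0 < N) {q : Cm d → Z}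
    {O : Set (Cm d)} (hO : IsOpen O)
    (hq : ∀ v ∈ O, ContMDiffAt 𝓘(ℂ, Cm d) 𝓘(ℂ, Cm (p + d)) ω q v) (hinj : InjOn q O) {y : Y}
    (hqy : ∀ v ∈ O, f (q v) = y) (hy : y ∈ U L)
    {G : Fin (SK L hy).N → Cm d → ℝ} (hG : ∀ i, ContinuousOn (G i) (ball 0 3))
    (h0 : ∀ i z, 0 ≤ G i z)
    (hGD : ∀ i, ∀ z ∈ ball (0 : Cm d) 3,
      ‖D i (L.χ y, z)‖ₑ ^ (2 / (N : ℝ)) ≤ ENNReal.ofReal (G i z)) :
    ∫⁻ u in O, ‖pull (Cm (p + d)) (eta L N D) q u‖ₑ ^ (2 / (N : ℝ)) ≤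
      ENNReal.ofReal ((SK L hy).int fun i z => ((G i z : ℝ) : ℂ)).re := by
  obtain ⟨A, q', hAO, hAo, hnull, hqq, hpoly⟩ := lift_open L.model hy.1 (L.hT' hy.2) hO hq hinj hqy
  have hae : (O : Set (Cm d)) =ᵐ[volume] (A : Set (Cm d)) :=
    Filter.EventuallyLE.antisymm (ae_le_set.2 hnull) (Eventually.of_forall fun _ hx => hAO hx)
  rw [setLIntegral_congr hae, ← lint_int (SK L hy) hG h0]
  refine lint_polyA_le hAo.measurableSet (polyInA_sub ⊥ hpoly) _ _ ?_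
  intro i u hu z hz γ θ hθ hθz hev
  obtain ⟨r, hr, hball⟩ := Metric.isOpen_iff.1 hAo u hu
  have hfu : f (q u) = y := hqy u (hAO hu)
  have hpd : IsPolydisc (Cm (p + d)) f q u r :=
    ⟨fun v hv => hq v (hAO (hball hv)), hinj.mono (hball.trans hAO), fun v hv => by
      rw [hqy v (hAO (hball hv)), hfu]⟩
  have h1 := pull_eta hD hf hpd (by rw [hfu]; exact hy) (q' := q')
    (fun v hv => by rw [hfu]; exact hqq v (hball hv)) (mem_ball_self hr) hz (γ := (γ : L.Γ)) hθ hθz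
    (by rw [hfu]; exact hev)
  rw [h1, hfu, enorm_rpow hN]
  gcongr
  exact hGD i z hz

/-- **the norm of `(det s) ^ |Γ|`**, on open sets -/
theorem lint_detH {s : IX L → Cm p × Cm d → Matrix (Fin d) (Fin d) ℂ}
    (hs : Fam2 (fsub L.𝓕 (⊥ : Subgroup L.Γ)) L.T' s)
    (hf : ContMDiff 𝓘(ℂ, Cm (p + d)) 𝓘(ℂ, Cm p) ω f) {q : Cm d → Z}
    {O : Set (Cm d)} (hO : IsOpen O)
    (hq : ∀ v ∈ O, ContMDiffAt 𝓘(ℂ, Cm d) 𝓘(ℂ, Cm (p + d)) ω q v) (hinj : InjOn q O) {y : Y}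
    (hqy : ∀ v ∈ O, f (q v) = y) (hy : y ∈ U L) :
    ∫⁻ u in O, ‖pull (Cm (p + d)) (eta L (2 * Nat.card L.Γ) (dN L s)) q u‖ₑ ^
        (2 / ((2 * Nat.card L.Γ : ℕ) : ℝ)) ≤
      ENNReal.ofReal (volS (SK L hy) fun i z => s i (L.χ y, z)) := by
  have hc := card_pos L
  refine lint_etaH (isND_det hs) hf (by omega) hO hq hinj hqy hy (fun i => ?_)
    (fun i z => norm_nonneg _) ?_
  · refine ContinuousOn.norm fun z hz => ?_
    have h1 : AnalyticAt ℂ (fun r => (s i r).det) (L.χ y, z) :=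
      analyticAt_det fun j k => hs.hol i _ hy.2 z hz j k
    exact (h1.continuousAt.comp (f := fun z : Cm d => (L.χ y, z))
      (by fun_prop)).continuousWithinAt
  · intro i z hz
    have hc' : (Nat.card L.Γ : ℝ) ≠ 0 := by exact_mod_cast hc.ne'
    simp only [dN]
    rw [enorm_pow, ← ENNReal.rpow_natCast, ← ENNReal.rpow_mul]
    have h1 : (Nat.card L.Γ : ℝ) * (2 / ((2 * Nat.card L.Γ : ℕ) : ℝ)) = 1 := by
      push_cast
      field_simp
    rw [h1, ENNReal.rpow_one, ← ofReal_norm]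

end

/-- **G2'**, with the norm on open sets -/
theorem form2' (hK : KStmt) (hF : FormsStmt) (hPer : Per2Stmt) (hPM : PullMark2Stmt)
    (hTM : TwoMark2Stmt) (p d N : ℕ) (Z Y : Type) [TopologicalSpace Z] [T2Space Z]
    [ChartedSpace (Cm (p + d)) Z]
    [IsManifold 𝓘(ℂ, Cm (p + d)) ω Z] [TopologicalSpace Y] [T2Space Y] [ChartedSpace (Cm p) Y]
    [IsManifold 𝓘(ℂ, Cm p) ω Y] (f : Z → Y) (S : Set Y)
    (w : Chart (p + d) Z → Cm (p + d) → Matrix (Fin (p + d)) (Fin (p + d)) ℂ) (n : ℕ)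
    (B : Matrix (Fin n) (Fin n) ℝ) (v : Fin n → ℝ) (R : ℝ) (hd : 2 ≤ d) (hR : 0 < R)
    (hf : ContMDiff 𝓘(ℂ, Cm (p + d)) 𝓘(ℂ, Cm p) ω f) (hw : IsKahler w)
    (hL : ∀ y₀ ∉ S, ∃ L : LocT (p := p) (d := d) f w N B v R, y₀ ∈ L.χ.source ∧ L.χ y₀ ∈ L.T' ∧
      ∀ t ∈ L.T', L.χ.symm t ∉ S) :
    ∃ (ι : Type) (U : ι → Set Y) (π : ι → Y → ((Fin 0 → ℝ) ≃L[ℝ] EuclideanSpace ℂ (Fin 0)))
      (P : ι → Y → Fin 1 → Fin n → ℂ) (η : ι → Fin 1 → Z → (Fin d → Cm (p + d)) → ℂ),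
      IsPeriodForms (Cm (p + d)) (Cm p) f S 0 (2 * N) (fun _ => 0) (fun _ _ => 0) 0 (fun _ => B)
        (fun _ => v) (fun _ => d * N) U π P η ∧
      NormO (E := Cm (p + d)) (E' := Cm p) f (2 * N) (fun _ _ => 0) 0 (fun _ => B)
        (fun _ => d * N) U π P η := by
  classical
  choose L hL1 hL2 hL3 using hL
  have hU : ∀ a : {y // y ∉ S}, a.1 ∈ U (lg (L a.1 a.2)) := fun a =>
    ⟨hL1 a.1 a.2, hL2 a.1 a.2⟩
  have hUS : ∀ (a : {y // y ∉ S}) (y : Y), y ∈ U (lg (L a.1 a.2)) → y ∉ S := by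
    intro a y hy
    have h1 := hL3 a.1 a.2 _ hy.2
    rwa [(L a.1 a.2).χ.left_inv hy.1] at h1
  have hnorm : ∀ (a : {y // y ∉ S}) (q : Cm d → Z) (O : Set (Cm d)) (y : Y), IsOpen O →
      (∀ v ∈ O, ContMDiffAt 𝓘(ℂ, Cm d) 𝓘(ℂ, Cm (p + d)) ω q v) → InjOn q O →
      (∀ v ∈ O, f (q v) = y) → y ∈ U (lg (L a.1 a.2)) →
      (∫⁻ u in O, ‖pull (Cm (p + d)) (eta (lg (L a.1 a.2)) (2 * N) (dS (L a.1 a.2))) q u‖ₑ ^
        (2 / ((2 * N : ℕ) : ℝ))) ^ (2 * N) ≤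
        ENNReal.ofReal (R ^ N * periodNorm (fun _ : Fin 1 => B) (fun _ => d * N)
          (fun _ => (L a.1 a.2).P ((L a.1 a.2).χ y))) := by
    intro a q O y hO hq hinj hqy hy
    have h2 := (L a.1 a.2).nrm _ hy.2
    have h3 : ∫⁻ u in O, ‖pull (Cm (p + d)) (eta (lg (L a.1 a.2)) (2 * N)
        (dS (L a.1 a.2))) q u‖ₑ ^ (2 / ((2 * N : ℕ) : ℝ)) ≤
        ENNReal.ofReal (volS (SK (lg (L a.1 a.2)) hy)
          fun i z => (L a.1 a.2).s i ((L a.1 a.2).χ y, z)) := by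
      have h0 := lint_detH (L := lg (L a.1 a.2)) (L a.1 a.2).fam2 hf hO hq hinj hqy hy
      have hc : Nat.card (lg (L a.1 a.2)).Γ = N := (L a.1 a.2).card
      rw [← dS_eq, hc] at h0
      exact h0
    have h4 : periodNorm (fun _ : Fin 1 => B) (fun _ => d * N)
        (fun _ => (L a.1 a.2).P ((L a.1 a.2).χ y)) =
        (bil B ((L a.1 a.2).P ((L a.1 a.2).χ y))
          (star ((L a.1 a.2).P ((L a.1 a.2).χ y)))).re ^ (d * N) := by
      unfold periodNorm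
      rw [Fin.prod_univ_one]
    have h5 : 0 ≤ volS (SK (lg (L a.1 a.2)) hy)
          (fun i z => (L a.1 a.2).s i ((L a.1 a.2).χ y, z)) := by
      unfold volS Sheets.int
      rw [Complex.re_sum]
      refine Finset.sum_nonneg fun i _ => ?_
      rw [integral_complex_ofReal, Complex.ofReal_re]
      exact integral_nonneg fun z => norm_nonneg _
    refine le_trans (pow_le_pow_left₀ bot_le h3 (2 * N)) (le_of_eq ?_)
    rw [← ENNReal.ofReal_pow h5, h4, pow_mul, pow_mul, ← mul_pow]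
    exact congrArg (fun t : ℝ => ENNReal.ofReal (t ^ N)) h2
  refine ⟨{y // y ∉ S}, fun a => U (lg (L a.1 a.2)), fun _ _ => triv,
    fun a y _ => (L a.1 a.2).P ((L a.1 a.2).χ y),
    fun a _ => eta (lg (L a.1 a.2)) (2 * N) (dS (L a.1 a.2)), ?_, ?_⟩
  · exact {
      cover := fun y => ⟨fun hy => ⟨⟨y, hy⟩, hU ⟨y, hy⟩⟩, fun ⟨a, ha⟩ => hUS a y ha⟩
      isOpen := fun a => isOpen_U _
      hol := fun a x y _ => contMDiffAt_const
      polarized := fun a y _ => ⟨ContinuousLinearEquiv.refl ℂ _, fun x x' => by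
        rw [Subsingleton.elim (ContinuousLinearEquiv.refl ℂ (EuclideanSpace ℂ (Fin 0)) (triv x)) 0,
          inner_zero_left]
        rfl⟩
      period := fun a y hy j => ⟨period hPer hd hy, fun i => by
        have h1 : ContDiffAt ℂ ω (fun t => (L a.1 a.2).P t i) ((L a.1 a.2).χ y) :=
          ((L a.1 a.2).holP i _ hy.2).contDiffAt
        exact ContMDiffAt.comp y (g := fun t => (L a.1 a.2).P t i) (f := (L a.1 a.2).χ)
          h1.contMDiffAt (contMDiffAt_χ (lg (L a.1 a.2)) hy)⟩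
      chart := fun x hx => by
        obtain ⟨i, ζ, h⟩ := H511.HK.chart (L := lg (L (f x) hx)) hf (hU ⟨f x, hx⟩)
        exact ⟨fun k z => ζ z k, fibreChart hf (hU ⟨f x, hx⟩) h⟩
      forms := fun a x hx => forms (isND_dS _) hf hx
      rank := fun a y hy => rank (isND_dS _) hf hy (exists_ne hPer hd hR hy)
      change := fun a b y hy => by
        obtain ⟨c, h1, h2⟩ := change hK hF hPM hTM hd hf hw (L a.1 a.2) (L b.1 b.2) hy.1 hy.2
        refine ⟨ContinuousLinearEquiv.refl ℂ _, Equiv.refl _, fun _ => c, Equiv.refl _,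
          ⟨fun m => ⟨m, Subsingleton.elim _ _⟩, fun m => ⟨m, Subsingleton.elim _ _⟩,
            fun _ _ => rfl⟩, fun j => ⟨rfl, rfl, rfl, h1⟩, fun x hx _ i ξ hξ => ?_⟩
        rw [pow_zero, one_mul, Fin.prod_univ_one]
        exact h2 x hx ξ hξ
      norm := by
        refine ⟨R ^ N, fun a i q v₀ r hq hy _ G _ => ?_⟩
        rw [mul_zero, pow_zero, mul_one]
        exact hnorm a q (ball v₀ r) (f (q v₀)) isOpen_ball hq.1 hq.2.1 hq.2.2 hy }
  · refine ⟨R ^ N, fun a i q O y hO hq hinj hqy hy G _ => ?_⟩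
    rw [mul_zero, pow_zero, mul_one]
    exact hnorm a q O y hO hq hinj hqy hy

end Vale.Agent.P281.H225.KC
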