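import Vale.Agent.P281.H225.KC.Geo
import Vale.Agent.P281.H225.KC.NormH
import Vale.Agent.P281.H64.TS.Core
import Vale.Agent.P281.H383.C.Tame

/-!
# P281, class C (helper225), KC3: T-HK for the class C, the assembly
-/

open Set Filter Metric MeasureTheory Vale.Agent.P281 Vale.Agent.P281.H713
open Vale.Agent.P272.K (Chart IsKahler IsHermitian)
open Vale.Agent.P281.MF Vale.Agent.P281.ISO
open Vale.Agent.P281.H713.TZ Vale.Agent.P281.H64
open Vale.Agent.P281.H64.Gen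
open Vale.Agent.P281.H64.Thin (IsThinSet)
open Vale.Agent.P281.H64.TU (Tame KTame RelFormT HasFormsT)
open Vale.Agent.P281.H64.TK.TS (hasFormsT_of)
open Vale.Agent.P281.H603.C (CTame NullStmt)
open Vale.Agent.P281.H383.C (mctx exists_good CTameOKStmt)
open Vale.Agent.P281.H83.HK
open scoped Topology ContDiff Manifold

set_option linter.all false

noncomputable section

namespace Vale.Agent.P281.H225.KC

section
variable {p d : ℕ} {X Y X₁ : Type} [TopologicalSpace X] [ChartedSpace (H64.Cm (p + d)) X]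
  [TopologicalSpace Y] [ChartedSpace (H64.Cm p) Y] [TopologicalSpace X₁]
  [ChartedSpace (H64.Cm (p + d)) X₁] {f : X → Y} {u : X₁ → X} {Δ : Set X → ℝ}

/-- **T-HK for the class C**: if the universal covering of one fibre of `f ∘ u : X₁ → Y` over a point
off `S` is compact, and its closed holomorphic 2-forms are the multiples of one generically
nondegenerate form. -/
theorem thkc_core (glob : Glob2Stmt) (hK : TK.KStmt) (hF : FormsStmt) (hPer : Per2Stmt)
    (hPM : PullMark2Stmt) (hTM : TwoMark2Stmt) (ab : TK.ABStmt) (null : NullStmt)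
    (crit : CritStmt) (compl : ComplStmt) (har : HartogsStmt) (exc : ExcStmt)
    (lift : TU.LiftTStmt) (tame : CTameOKStmt) (hd : 2 ≤ d)
    (h : H511.Surf.IsFibration (H64.Cm (p + d)) (H64.Cm p) f Δ)
    (hu : TZ.S.IsModif (H64.Cm (p + d)) u)
    (hw : ∃ w : Chart (p + d) X₁ → H64.Cm (p + d) → Matrix (Fin (p + d)) (Fin (p + d)) ℂ,
      IsKahler w) :
    ∃ S : Set Y, IsSmallSet (H64.Cm p) S ∧ IsProperFibration (n := p + d) (p := p) f S ∧
      IsProperFibration (n := p + d) (p := p) (fun z => f (u z)) S ∧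
      ∀ y ∉ S, (∃ N, 0 < N ∧ NDeg2 p d N (fun z => f (u z)) y) →
        TZ.S.kodF (p + d) p Δ (id : X → X) f ≤ TZ.S.kodX (H64.Cm (p + d)) Δ := by
  classical
  obtain ⟨w, hw⟩ := hw
  haveI : T2Space X := h.hausdorff.1
  haveI : T2Space Y := h.hausdorff.2
  haveI : CompactSpace X := h.compact
  haveI : ConnectedSpace X := h.connected
  haveI : IsManifold 𝓘(ℂ, H64.Cm (p + d)) ω X := h.manifold.1
  haveI : IsManifold 𝓘(ℂ, H64.Cm p) ω Y := h.manifold.2
  haveI : T2Space X₁ := hu.1.2.1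
  haveI : IsManifold 𝓘(ℂ, H64.Cm (p + d)) ω X₁ := hu.1.2.2.2
  haveI : CompactSpace X₁ := by
    have h1 := hu.2.2.1.isCompact_preimage isCompact_univ
    rw [preimage_univ] at h1
    exact ⟨h1⟩
  have hΔ0 : ∀ D, 0 ≤ Δ D := fun D => (snc01 (JB.snc h.snc) D).1
  have hsurj : Function.Surjective f := fun y => (h.fibres y).nonempty
  haveI : PreconnectedSpace Y := by
    rw [preconnectedSpace_iff_univ, ← hsurj.range_eq]
    exact isPreconnected_range h.hol.continuous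
  obtain ⟨S, hS, hP, hG⟩ := exists_good (w := w) crit compl har exc h hu
  have hP₀ := hP S subset_rfl hS.1
  have hP₁ : IsProperFibration (n := p + d) (p := p) (fun z => f (u z)) S :=
    (hG S subset_rfl hS).prop₁
  refine ⟨S, hS, hP₀, hP₁, fun y hyS ⟨N, hN, hND⟩ => ?_⟩
  have hpre := (compl p Y S hS).2
  have hf₁ : ContMDiff 𝓘(ℂ, H64.Cm (p + d)) 𝓘(ℂ, H64.Cm p) ω (fun z => f (u z)) :=
    h.hol.comp hu.2.1
  obtain ⟨n, B, v, R, hR, hL⟩ :=
    glob p d N X₁ Y (fun z => f (u z)) S w y hd hf₁ hP₁ hpre hw hyS hND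
  obtain ⟨ι, U, π, P, η, hC₁, hNo⟩ :=
    form2' hK hF hPer hPM hTM p d N X₁ Y (fun z => f (u z)) S w n B v R hd hR hf₁ hw hL
  obtain ⟨η', hC⟩ := descM (by omega) (Nat.mul_pos two_pos hN) har exc ab null h.hol hu hw hP₀ hP₁
    hC₁ hNo
  let e₀ : H64.Cm (p + d) ≃L[ℂ] (H64.Cm p × H64.Cm d) :=
    ContinuousLinearEquiv.ofFinrankEq (by simp)
  have h1 : (((0 : ℕ) : ℕ∞) : WithBot ℕ∞) + TZ.S.kodF (p + d) p Δ (id : X → X) f ≤
      TZ.S.kodX (H64.Cm (p + d)) Δ := by
    refine H303.UF.first_of fun j₂ h₂ => ?_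
    refine lift (p + d) p X Y (H64.Cm d) (CTame (d := d) u w) f S e₀ Δ 0 j₂
      (tame (p + d) d X X₁ u w hu.2.1 hw.toIsHermitian) h.hol hS hP₀.submersive h.snc
      (fun y hy => hasFormsT_of ?_) h₂
    refine hasForms_periods hC (fun x => h.hol x) e₀ (Nat.mul_pos two_pos hN) ?_ ?_ ?_ hy
    · simp
    · intro D hD
      exact absurd rfl hD
    · intro D
      simpa using mul_nonneg (Nat.cast_nonneg (2 * N)) (hΔ0 D)
  simpa using h1

end

/-- **T-HK for the class C** -/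
def THKCStmt : Prop :=
  ∀ (p d : ℕ) (X Y : Type) [TopologicalSpace X] [ChartedSpace (H64.Cm (p + d)) X]
    [TopologicalSpace Y] [ChartedSpace (H64.Cm p) Y] (f : X → Y) (Δ : Set X → ℝ), 2 ≤ d →
    H511.Surf.IsFibration (H64.Cm (p + d)) (H64.Cm p) f Δ →
    ∀ (X₁ : Type) [TopologicalSpace X₁] [ChartedSpace (H64.Cm (p + d)) X₁] (u : X₁ → X),
    TZ.S.IsModif (H64.Cm (p + d)) u →
    (∃ w : Chart (p + d) X₁ → H64.Cm (p + d) → Matrix (Fin (p + d)) (Fin (p + d)) ℂ,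
      IsKahler w) →
    ∃ H : ℕ → Set Y, (∀ k, IsThinSet (H64.Cm p) (H k)) ∧ ∀ y, (∀ k, y ∉ H k) →
      ∀ (F : Type) [TopologicalSpace F] [T2Space F] [SimplyConnectedSpace F]
        [ChartedSpace (H64.Cm d) F] (i : F → X₁),
        H511.Surf.IsFibre (H64.Cm (p + d)) (H64.Cm d) (fun z => f (u z)) y i → Sympl d F →
        TZ.S.kodF (p + d) p Δ (id : X → X) f ≤ TZ.S.kodX (H64.Cm (p + d)) Δ

theorem thkc_of (glob : Glob2Stmt) (hK : TK.KStmt) (hF : FormsStmt) (hPer : Per2Stmt)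
    (hPM : PullMark2Stmt) (hTM : TwoMark2Stmt) (fib : Fib2Stmt) (ab : TK.ABStmt)
    (null : NullStmt) (crit : CritStmt) (compl : ComplStmt) (har : HartogsStmt) (exc : ExcStmt)
    (lift : TU.LiftTStmt) (tame : CTameOKStmt) : THKCStmt := by
  intro p d X Y _ _ _ _ f Δ hd h X₁ _ _ u hu hw
  haveI : T2Space Y := h.hausdorff.2
  haveI : CompactSpace X := h.compact
  haveI : IsManifold 𝓘(ℂ, H64.Cm p) ω Y := h.manifold.2
  haveI : T2Space X₁ := hu.1.2.1
  haveI : IsManifold 𝓘(ℂ, H64.Cm (p + d)) ω X₁ := hu.1.2.2.2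
  obtain ⟨S, hS, -, hP₁, hmain⟩ :=
    thkc_core glob hK hF hPer hPM hTM ab null crit compl har exc lift tame hd h hu hw
  obtain ⟨H, hH, hsub⟩ := hS.2
  refine ⟨H, hH, fun y hy F _ _ _ _ i hi hpg => hmain y ?_ ?_⟩
  · intro h2
    obtain ⟨k, hk⟩ := mem_iUnion.1 (hsub h2)
    exact hy k hk
  · exact fib p d X₁ Y (fun z => f (u z)) S (by omega) (h.hol.comp hu.2.1) hP₁ ab y (by
      intro h2
      obtain ⟨k, hk⟩ := mem_iUnion.1 (hsub h2)
      exact hy k hk) F i hi hpg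

end Vale.Agent.P281.H225.KC
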