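import Vale.Agent.P281.H225.KC.Cov
import Vale.Agent.P281.H225.KC.Desc
import Vale.Agent.P281.H511.TS.Fin

/-!
# P281, class C (helper225), KC2: the norm of the forms of project T-S, on open sets
-/

open Set Filter Metric MeasureTheory Vale.Agent.P281 Vale.Agent.P281.H713 Vale.Agent.P272.K
open scoped Topology ContDiff Manifold ComplexConjugate ENNReal

set_option linter.unusedSectionVars false

noncomputable section

namespace Vale.Agent.P281.H225.KC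

open Vale.Agent.P281.H64.TK Vale.Agent.P281.H64.TK.TS Vale.Agent.P281.H603.K
open Vale.Agent.P281.H864.K
open Vale.Agent.P281.H511.TS
open Vale.Agent.P281.H603.TE (sub fsub fW idx rep exists_rep ccs sub_sigma fsub_sigma' lift_polyM
  polyIn_sub)
open Vale.Agent.P281.H603.C (PolyInA)
open Vale.Agent.P281.H225 (lint_polyA_le)
open Vale.Agent.P281.H225.C (polyInA_sub)

attribute [local instance] ccs

section
variable {p : ℕ} {Z Y : Type} [TopologicalSpace Z] [T2Space Z] [ChartedSpace (Cm (p + 2)) Z]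
  [IsManifold 𝓘(ℂ, Cm (p + 2)) ω Z] [TopologicalSpace Y] [T2Space Y] [ChartedSpace (Cm p) Y]
  [IsManifold 𝓘(ℂ, Cm p) ω Y] {f : Z → Y}
  {w : Chart (p + 2) Z → Cm (p + 2) → Matrix (Fin (p + 2)) (Fin (p + 2)) ℂ} {N n : ℕ}
  {B : Matrix (Fin n) (Fin n) ℝ} {v : Fin n → ℝ} {L : LocK (p := p) f w N B v}

/-- **the norm**, on open sets -/
theorem lint_etaO (hf : ContMDiff 𝓘(ℂ, Cm (p + 2)) 𝓘(ℂ, Cm p) ω f) (hN : 0 < N) {q : Cm 2 → Z}
    {O : Set (Cm 2)} (hO : IsOpen O)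
    (hq : ∀ v ∈ O, ContMDiffAt 𝓘(ℂ, Cm 2) 𝓘(ℂ, Cm (p + 2)) ω q v) (hinj : InjOn q O) {y : Y}
    (hqy : ∀ v ∈ O, f (q v) = y) (hy : y ∈ U L) :
    ∫⁻ u in O, ‖pull (Cm (p + 2)) (eta L) q u‖ₑ ^ (2 / (N : ℝ)) ≤
      ENNReal.ofReal ((SK L hy).int fun i z =>
        ((‖L.s i (L.χ y, z)‖ ^ 2 : ℝ) : ℂ)).re := by
  obtain ⟨A, q', hAO, hAo, hnull, hqq, hpoly⟩ := lift_open L.model hy.1 (L.hT' hy.2) hO hq hinj hqy
  have hS := L.holS.form _ (L.hT' hy.2) hy.2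
  have hae : (O : Set (Cm 2)) =ᵐ[volume] (A : Set (Cm 2)) :=
    Filter.EventuallyLE.antisymm (ae_le_set.2 hnull) (Eventually.of_forall fun _ hx => hAO hx)
  rw [setLIntegral_congr hae]
  rw [← lint_int (SK L hy) (D := fun i z => ‖L.s i (L.χ y, z)‖ ^ 2)
    (fun i => ((hS.hol i).continuousOn.norm).pow 2) (fun i z => by positivity)]
  refine lint_polyA_le hAo.measurableSet (polyInA_sub ⊥ hpoly) _ _ ?_
  intro i u hu z hz γ θ hθ hθz hev
  obtain ⟨r, hr, hball⟩ := Metric.isOpen_iff.1 hAo u hu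
  have hfu : f (q u) = y := hqy u (hAO hu)
  have hpd : IsPolydisc (Cm (p + 2)) f q u r :=
    ⟨fun v hv => hq v (hAO (hball hv)), hinj.mono (hball.trans hAO), fun v hv => by
      rw [hqy v (hAO (hball hv)), hfu]⟩
  have h1 := pull_eta (L := L) hf hpd (by rw [hfu]; exact hy) (q' := q')
    (fun v hv => by rw [hfu]; exact hqq v (hball hv)) (mem_ball_self hr) hz (γ := (γ : L.Γ)) hθ hθz
    (by rw [hfu]; exact hev)
  rw [h1, hfu, enorm_pow_rpow hN, norm_mul, mul_pow, mul_comm, ENNReal.ofReal_mul (by positivity)]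

end

/-- **G2**, with the norm on open sets -/
theorem formK' (hK : KStmt) (hPer : PerStmt) (hPM : PullMarkStmt) (hTM : TwoMarkStmt)
    (p N : ℕ) (Z Y : Type) [TopologicalSpace Z] [T2Space Z] [ChartedSpace (Cm (p + 2)) Z]
    [IsManifold 𝓘(ℂ, Cm (p + 2)) ω Z] [TopologicalSpace Y] [T2Space Y] [ChartedSpace (Cm p) Y]
    [IsManifold 𝓘(ℂ, Cm p) ω Y] (f : Z → Y) (S : Set Y)
    (w : Chart (p + 2) Z → Cm (p + 2) → Matrix (Fin (p + 2)) (Fin (p + 2)) ℂ) (n : ℕ)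
    (B : Matrix (Fin n) (Fin n) ℝ) (v : Fin n → ℝ) (hN : 0 < N)
    (hf : ContMDiff 𝓘(ℂ, Cm (p + 2)) 𝓘(ℂ, Cm p) ω f) (hw : IsKahler w)
    (hL : ∀ y₀ ∉ S, ∃ L : LocK (p := p) f w N B v, y₀ ∈ L.χ.source ∧ L.χ y₀ ∈ L.T' ∧
      ∀ t ∈ L.T', L.χ.symm t ∉ S) :
    ∃ (ι : Type) (U : ι → Set Y) (π : ι → Y → ((Fin 0 → ℝ) ≃L[ℝ] EuclideanSpace ℂ (Fin 0)))
      (P : ι → Y → Fin 1 → Fin n → ℂ) (η : ι → Fin 1 → Z → (Fin 2 → Cm (p + 2)) → ℂ),
      IsPeriodForms (Cm (p + 2)) (Cm p) f S 0 N (fun _ => 0) (fun _ _ => 0) 0 (fun _ => B)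
        (fun _ => v) (fun _ => N) U π P η ∧
      NormO (E := Cm (p + 2)) (E' := Cm p) f N (fun _ _ => 0) 0 (fun _ => B)
        (fun _ => N) U π P η := by
  classical
  choose L hL1 hL2 hL3 using hL
  have hU : ∀ a : {y // y ∉ S}, a.1 ∈ U (L a.1 a.2) := fun a => ⟨hL1 a.1 a.2, hL2 a.1 a.2⟩
  have hUS : ∀ (a : {y // y ∉ S}) (y : Y), y ∈ U (L a.1 a.2) → y ∉ S := by
    intro a y hy
    have h1 := hL3 a.1 a.2 _ hy.2
    rwa [(L a.1 a.2).χ.left_inv hy.1] at h1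
  have hnorm : ∀ (a : {y // y ∉ S}) (q : Cm 2 → Z) (O : Set (Cm 2)) (y : Y), IsOpen O →
      (∀ v ∈ O, ContMDiffAt 𝓘(ℂ, Cm 2) 𝓘(ℂ, Cm (p + 2)) ω q v) → InjOn q O →
      (∀ v ∈ O, f (q v) = y) → y ∈ U (L a.1 a.2) →
      (∫⁻ u in O, ‖pull (Cm (p + 2)) (eta (L a.1 a.2)) q u‖ₑ ^ (2 / (N : ℝ))) ^ N ≤
        ENNReal.ofReal ((1 / 4) ^ N * periodNorm (fun _ : Fin 1 => B) (fun _ => N)
          (fun _ => (L a.1 a.2).P ((L a.1 a.2).χ y))) := by
    intro a q O y hO hq hinj hqy hy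
    obtain ⟨h1, h2⟩ := period (L := L a.1 a.2) hPer hy
    have h3 := lint_etaO (L := L a.1 a.2) hf hN hO hq hinj hqy hy
    have h4 : periodNorm (fun _ : Fin 1 => B) (fun _ => N)
        (fun _ => (L a.1 a.2).P ((L a.1 a.2).χ y)) =
        (bil B ((L a.1 a.2).P ((L a.1 a.2).χ y))
          (star ((L a.1 a.2).P ((L a.1 a.2).χ y)))).re ^ N := by
      unfold periodNorm
      rw [Fin.prod_univ_one]
    have h5 : 0 ≤ ((SK (L a.1 a.2) hy).int fun i z =>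
        ((‖(L a.1 a.2).s i ((L a.1 a.2).χ y, z)‖ ^ 2 : ℝ) : ℂ)).re := by
      have := h1.pos
      rw [h2] at this
      linarith
    refine le_trans (pow_le_pow_left₀ bot_le h3 N) (le_of_eq ?_)
    rw [← ENNReal.ofReal_pow h5, h4, h2, ← mul_pow]
    congr 2
    ring
  refine ⟨{y // y ∉ S}, fun a => U (L a.1 a.2), fun _ _ => triv,
    fun a y _ => (L a.1 a.2).P ((L a.1 a.2).χ y), fun a _ => eta (L a.1 a.2), ?_, ?_⟩
  · exact {
      cover := fun y => ⟨fun hy => ⟨⟨y, hy⟩, hU ⟨y, hy⟩⟩, fun ⟨a, ha⟩ => hUS a y ha⟩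
      isOpen := fun a => isOpen_U _
      hol := fun a x y _ => contMDiffAt_const
      polarized := fun a y _ => ⟨ContinuousLinearEquiv.refl ℂ _, fun x x' => by
        rw [Subsingleton.elim (ContinuousLinearEquiv.refl ℂ (EuclideanSpace ℂ (Fin 0)) (triv x)) 0,
          inner_zero_left]
        rfl⟩
      period := fun a y hy j => ⟨(period hPer hy).1, fun i => by
        have h1 : ContDiffAt ℂ ω (fun t => (L a.1 a.2).P t i) ((L a.1 a.2).χ y) :=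
          ((L a.1 a.2).holP i _ hy.2).contDiffAt
        exact ContMDiffAt.comp y (g := fun t => (L a.1 a.2).P t i) (f := (L a.1 a.2).χ)
          h1.contMDiffAt (contMDiffAt_χ (L a.1 a.2) hy)⟩
      chart := fun x hx => by
        obtain ⟨i, ζ, h⟩ := H511.TS.chart (L := L (f x) hx) hf (hU ⟨f x, hx⟩)
        exact ⟨fun k z => ζ z k, fibreChart hf (hU ⟨f x, hx⟩) h⟩
      forms := fun a x hx => forms hf hx
      rank := fun a y hy => rank hf hy
      change := fun a b y hy => by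
        obtain ⟨c, h1, h2⟩ := change hK hPM hTM hf hw (L a.1 a.2) (L b.1 b.2) hy.1 hy.2
        refine ⟨ContinuousLinearEquiv.refl ℂ _, Equiv.refl _, fun _ => c, Equiv.refl _,
          ⟨fun m => ⟨m, Subsingleton.elim _ _⟩, fun m => ⟨m, Subsingleton.elim _ _⟩,
            fun _ _ => rfl⟩, fun j => ⟨rfl, rfl, rfl, h1⟩, fun x hx _ i ξ hξ => ?_⟩
        rw [pow_zero, one_mul, Fin.prod_univ_one]
        exact h2 x hx ξ hξ
      norm := by
        refine ⟨(1 / 4) ^ N, fun a i q v₀ r hq hy _ G _ => ?_⟩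
        rw [mul_zero, pow_zero, mul_one]
        exact hnorm a q (ball v₀ r) (f (q v₀)) isOpen_ball hq.1 hq.2.1 hq.2.2 hy }
  · refine ⟨(1 / 4) ^ N, fun a i q O y hO hq hinj hqy hy G _ => ?_⟩
    rw [mul_zero, pow_zero, mul_one]
    exact hnorm a q O y hO hq hinj hqy hy

end Vale.Agent.P281.H225.KC
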