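import Vale.Agent.P281.H225.KC.Geo
import Vale.Agent.P281.H225.KC.NormK
import Vale.Agent.P281.H64.TS.Core
import Vale.Agent.P281.H383.C.Tame

/-!
# P281, class C (helper225), KC3: T-S for the class C, the assembly
-/

open Set Filter Metric MeasureTheory Vale.Agent.P281 Vale.Agent.P281.H713
open Vale.Agent.P272.K (Chart IsKahler IsHermitian)
open Vale.Agent.P281.MF Vale.Agent.P281.ISO
open Vale.Agent.P281.H713.TZ Vale.Agent.P281.H64
open Vale.Agent.P281.H64.Gen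
open Vale.Agent.P281.H64.Thin (IsThinSet)
open Vale.Agent.P281.H64.TU (Tame KTame RelFormT HasFormsT)
open Vale.Agent.P281.H64.TK.TS
open Vale.Agent.P281.H603.C (CTame NullStmt)
open Vale.Agent.P281.H383.C (mctx exists_good CTameOKStmt)
open scoped Topology ContDiff Manifold

set_option linter.all false

noncomputable section

namespace Vale.Agent.P281.H225.KC

section
variable {p : ℕ} {X Y X₁ : Type} [TopologicalSpace X] [ChartedSpace (Cm (p + 2)) X]
  [TopologicalSpace Y] [ChartedSpace (Cm p) Y] [TopologicalSpace X₁]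
  [ChartedSpace (Cm (p + 2)) X₁] {f : X → Y} {u : X₁ → X} {Δ : Set X → ℝ}

/-- **T-S for the class C**: if the universal covering of one fibre of `f ∘ u : X₁ → Y` over a point
off `S` is compact, with `h^{2,0} = 1`. -/
theorem tsc_core (glob : GlobKStmt) (hK : TK.KStmt) (hPer : PerStmt) (hPM : PullMarkStmt)
    (hTM : TwoMarkStmt) (ab : TK.ABStmt) (null : NullStmt) (crit : CritStmt) (compl : ComplStmt)
    (har : HartogsStmt) (exc : ExcStmt) (lift : TU.LiftTStmt) (tame : CTameOKStmt)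
    (h : H511.Surf.IsFibration (Cm (p + 2)) (Cm p) f Δ) (hu : TZ.S.IsModif (Cm (p + 2)) u)
    (hw : ∃ w : Chart (p + 2) X₁ → Cm (p + 2) → Matrix (Fin (p + 2)) (Fin (p + 2)) ℂ,
      IsKahler w) :
    ∃ S : Set Y, IsSmallSet (Cm p) S ∧ IsProperFibration (n := p + 2) (p := p) f S ∧
      IsProperFibration (n := p + 2) (p := p) (fun z => f (u z)) S ∧
      ∀ y ∉ S, (∃ N, 0 < N ∧ NDegK p N (fun z => f (u z)) y) →
        TZ.S.kodF (p + 2) p Δ (id : X → X) f ≤ TZ.S.kodX (Cm (p + 2)) Δ := by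
  classical
  obtain ⟨w, hw⟩ := hw
  haveI : T2Space X := h.hausdorff.1
  haveI : T2Space Y := h.hausdorff.2
  haveI : CompactSpace X := h.compact
  haveI : ConnectedSpace X := h.connected
  haveI : IsManifold 𝓘(ℂ, Cm (p + 2)) ω X := h.manifold.1
  haveI : IsManifold 𝓘(ℂ, Cm p) ω Y := h.manifold.2
  haveI : T2Space X₁ := hu.1.2.1
  haveI : IsManifold 𝓘(ℂ, Cm (p + 2)) ω X₁ := hu.1.2.2.2
  haveI : CompactSpace X₁ := by
    have h1 := hu.2.2.1.isCompact_preimage isCompact_univ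
    rw [preimage_univ] at h1
    exact ⟨h1⟩
  have hΔ0 : ∀ D, 0 ≤ Δ D := fun D => (snc01 (JB.snc h.snc) D).1
  have hsurj : Function.Surjective f := fun y => (h.fibres y).nonempty
  haveI : PreconnectedSpace Y := by
    rw [preconnectedSpace_iff_univ, ← hsurj.range_eq]
    exact isPreconnected_range h.hol.continuous
  obtain ⟨S, hS, hP, hG⟩ := exists_good (w := w) crit compl har exc h hu
  have hP₀ := hP S subset_rfl hS.1
  have hP₁ : IsProperFibration (n := p + 2) (p := p) (fun z => f (u z)) S :=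
    (hG S subset_rfl hS).prop₁
  refine ⟨S, hS, hP₀, hP₁, fun y hyS ⟨N, hN, hND⟩ => ?_⟩
  have hpre := (compl p Y S hS).2
  have hf₁ : ContMDiff 𝓘(ℂ, Cm (p + 2)) 𝓘(ℂ, Cm p) ω (fun z => f (u z)) := h.hol.comp hu.2.1
  obtain ⟨n, B, v, hL⟩ := glob p N X₁ Y (fun z => f (u z)) S w y hf₁ hP₁ hpre hw hyS hND
  obtain ⟨ι, U, π, P, η, hC₁, hNo⟩ :=
    formK' hK hPer hPM hTM p N X₁ Y (fun z => f (u z)) S w n B v hN hf₁ hw hL
  obtain ⟨η', hC⟩ := descM two_pos hN har exc ab null h.hol hu hw hP₀ hP₁ hC₁ hNo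
  let e₀ : Cm (p + 2) ≃L[ℂ] (Cm p × Cm 2) := ContinuousLinearEquiv.ofFinrankEq (by simp)
  have h1 : (((0 : ℕ) : ℕ∞) : WithBot ℕ∞) + TZ.S.kodF (p + 2) p Δ (id : X → X) f ≤
      TZ.S.kodX (Cm (p + 2)) Δ := by
    refine H303.UF.first_of fun j₂ h₂ => ?_
    refine lift (p + 2) p X Y (Cm 2) (CTame (d := 2) u w) f S e₀ Δ 0 j₂
      (tame (p + 2) 2 X X₁ u w hu.2.1 hw.toIsHermitian) h.hol hS hP₀.submersive h.snc
      (fun y hy => hasFormsT_of ?_) h₂
    refine hasForms_periods hC (fun x => h.hol x) e₀ hN ?_ ?_ ?_ hy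
    · simp
    · intro D hD
      exact absurd rfl hD
    · intro D
      simpa using mul_nonneg (Nat.cast_nonneg N) (hΔ0 D)
  simpa using h1

end

/-- **T-S for the class C** -/
def TSCStmt : Prop :=
  ∀ (p : ℕ) (X Y : Type) [TopologicalSpace X] [ChartedSpace (Cm (p + 2)) X]
    [TopologicalSpace Y] [ChartedSpace (Cm p) Y] (f : X → Y) (Δ : Set X → ℝ),
    H511.Surf.IsFibration (Cm (p + 2)) (Cm p) f Δ →
    ∀ (X₁ : Type) [TopologicalSpace X₁] [ChartedSpace (Cm (p + 2)) X₁] (u : X₁ → X),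
    TZ.S.IsModif (Cm (p + 2)) u →
    (∃ w : Chart (p + 2) X₁ → Cm (p + 2) → Matrix (Fin (p + 2)) (Fin (p + 2)) ℂ, IsKahler w) →
    ∃ H : ℕ → Set Y, (∀ k, IsThinSet (Cm p) (H k)) ∧ ∀ y, (∀ k, y ∉ H k) →
      ∀ (F : Type) [TopologicalSpace F] [T2Space F] [SimplyConnectedSpace F]
        [ChartedSpace (Cm 2) F] (i : F → X₁),
        H511.Surf.IsFibre (Cm (p + 2)) (Cm 2) (fun z => f (u z)) y i → TK.TS.PgOne 2 F →
        TZ.S.kodF (p + 2) p Δ (id : X → X) f ≤ TZ.S.kodX (Cm (p + 2)) Δ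

theorem tsc_of (glob : GlobKStmt) (hK : TK.KStmt) (hPer : PerStmt) (hPM : PullMarkStmt)
    (hTM : TwoMarkStmt) (fib : FibKStmt) (ab : TK.ABStmt) (null : NullStmt) (crit : CritStmt)
    (compl : ComplStmt) (har : HartogsStmt) (exc : ExcStmt) (lift : TU.LiftTStmt)
    (tame : CTameOKStmt) : TSCStmt := by
  intro p X Y _ _ _ _ f Δ h X₁ _ _ u hu hw
  haveI : T2Space Y := h.hausdorff.2
  haveI : CompactSpace X := h.compact
  haveI : IsManifold 𝓘(ℂ, Cm p) ω Y := h.manifold.2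
  haveI : T2Space X₁ := hu.1.2.1
  haveI : IsManifold 𝓘(ℂ, Cm (p + 2)) ω X₁ := hu.1.2.2.2
  obtain ⟨S, hS, -, hP₁, hmain⟩ :=
    tsc_core glob hK hPer hPM hTM ab null crit compl har exc lift tame h hu hw
  obtain ⟨H, hH, hsub⟩ := hS.2
  refine ⟨H, hH, fun y hy F _ _ _ _ i hi hpg => hmain y ?_ ?_⟩
  · intro h2
    obtain ⟨k, hk⟩ := mem_iUnion.1 (hsub h2)
    exact hy k hk
  · exact fib p X₁ Y (fun z => f (u z)) S (h.hol.comp hu.2.1) hP₁ ab y (by
      intro h2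
      obtain ⟨k, hk⟩ := mem_iUnion.1 (hsub h2)
      exact hy k hk) F i hi hpg

end Vale.Agent.P281.H225.KC
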