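import Vale.Agent.P281.H225.C.Bound

/-!
# P281, class C (helper225), KC2: slices defined on open subsets of `ℂ^d`
-/

open Set Filter Metric MeasureTheory Vale.Agent.P281 Vale.Agent.P281.H713 Vale.Agent.P272.K
open scoped Topology ContDiff Manifold ComplexConjugate ENNReal

set_option linter.unusedSectionVars false

noncomputable section

namespace Vale.Agent.P281.H225.KC

open Vale.Agent.P281.H64.TK Vale.Agent.P281.H603.K Vale.Agent.P281.H864.K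
open Vale.Agent.P281.H603.TE (lift_polyM sub)
open Vale.Agent.P281.H603.C (PolyInA)
open Vale.Agent.P281.H225 (lint_polyA_le)

/-- an open set is covered, up to a null set, by disjoint balls -/
theorem exists_balls {d : ℕ} {O : Set (Cm d)} (hO : IsOpen O) :
    ∃ (t : Set (Cm d)) (r : Cm d → ℝ), (∀ x ∈ t, 0 < r x ∧ ball x (r x) ⊆ O) ∧
      volume (O \ ⋃ x ∈ t, ball x (r x)) = 0 ∧ t.PairwiseDisjoint fun x => ball x (r x) := by
  obtain ⟨t, r, ht, hts, hr, hnull, hdis⟩ :=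
    Besicovitch.exists_disjoint_closedBall_covering_ae (volume : Measure (Cm d))
      (fun x => {ρ | closedBall x ρ ⊆ O}) O (fun x hx δ hδ => by
        obtain ⟨ε, hε, h1⟩ := Metric.isOpen_iff.1 hO x hx
        refine ⟨min (ε / 2) (δ / 2), ?_, by positivity, ?_⟩
        · refine (closedBall_subset_ball ?_).trans h1
          exact (min_le_left _ _).trans_lt (by linarith)
        · exact (min_le_right _ _).trans_lt (by linarith)) (fun _ => 1) fun _ _ => one_pos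
  refine ⟨t, r, fun x hx => ⟨(hr x hx).2.1, ball_subset_closedBall.trans (hr x hx).1⟩, ?_,
    fun x hx y hy hxy => (hdis hx hy hxy).mono ball_subset_closedBall ball_subset_closedBall⟩
  have h1 : O \ ⋃ x ∈ t, ball x (r x) ⊆
      (O \ ⋃ x ∈ t, closedBall x (r x)) ∪ ⋃ x ∈ t, sphere x (r x) := by
    rintro v ⟨hv, hv'⟩
    by_cases h2 : v ∈ ⋃ x ∈ t, closedBall x (r x)
    · right
      simp only [mem_iUnion] at h2 ⊢
      obtain ⟨x, hx, h3⟩ := h2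
      refine ⟨x, hx, ?_⟩
      rw [mem_sphere]
      refine le_antisymm (mem_closedBall.1 h3) ?_
      by_contra h4
      apply hv'
      simp only [mem_iUnion]
      exact ⟨x, hx, mem_ball.2 (not_le.1 h4)⟩
    · exact Or.inl ⟨hv, h2⟩
  refine measure_mono_null h1 (measure_union_null hnull ?_)
  rw [measure_biUnion_null_iff ht]
  exact fun x hx => Measure.addHaar_sphere_of_ne_zero _ _ (hr x hx).2.1.ne'

section model
variable {p d : ℕ} {Z Y : Type} [TopologicalSpace Z] [T2Space Z] [ChartedSpace (Cm (p + d)) Z]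
  [IsManifold 𝓘(ℂ, Cm (p + d)) ω Z] [TopologicalSpace Y] [T2Space Y] [ChartedSpace (Cm p) Y]
  [IsManifold 𝓘(ℂ, Cm p) ω Y] {f : Z → Y}
  {E Γ : Type} [TopologicalSpace E] [T2Space E] [SimplyConnectedSpace E] [Group Γ]
  [MulAction Γ E] [ContinuousConstSMul Γ E] {𝓕 : Fam p d E Γ} {Qm : Cm p → E → Z}
  {χ : OpenPartialHomeomorph Y (Cm p)}

/-- **lift of a slice defined on an open set, up to a null set** -/
theorem lift_open (M : Model (n := p + d) f 𝓕 χ Qm) {y : Y} (hs : y ∈ χ.source)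
    (ht : χ y ∈ 𝓕.T) {q : Cm d → Z} {O : Set (Cm d)} (hO : IsOpen O)
    (hq : ∀ v ∈ O, ContMDiffAt 𝓘(ℂ, Cm d) 𝓘(ℂ, Cm (p + d)) ω q v) (hinj : InjOn q O)
    (hqy : ∀ v ∈ O, f (q v) = y) :
    ∃ (A : Set (Cm d)) (q' : Cm d → E), A ⊆ O ∧ IsOpen A ∧ volume (O \ A) = 0 ∧
      (∀ v ∈ A, Qm (χ y) (q' v) = q v) ∧ PolyInA (𝓕.at (χ y) ht) q' A := by
  classical
  obtain ⟨t, r, hr, hnull, hdis⟩ := exists_balls hO
  have h1 : ∀ x : t, ∃ q' : Cm d → E, (∀ v ∈ ball x.1 (r x.1), Qm (χ y) (q' v) = q v) ∧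
      PolyIn (𝓕.at (χ y) ht) q' x.1 (r x.1) := by
    rintro ⟨x, hx⟩
    obtain ⟨h2, h3⟩ := hr x hx
    have h4 : IsPolydisc (Cm (p + d)) f q x (r x) :=
      ⟨fun v hv => hq v (h3 hv), hinj.mono h3, fun v hv => by
        rw [hqy v (h3 hv), hqy x (h3 (mem_ball_self h2))]⟩
    exact lift_polyM M hs ht h4 (hqy x (h3 (mem_ball_self h2))) h2
  choose q₀ hq₀ hpoly using h1
  set A : Set (Cm d) := ⋃ x ∈ t, ball x (r x) with hA
  set q' : Cm d → E := fun v => if h : ∃ x, x ∈ t ∧ v ∈ ball x (r x) then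
    q₀ ⟨h.choose, h.choose_spec.1⟩ v else Classical.arbitrary _ with hq'
  have hq'v : ∀ x (hx : x ∈ t), ∀ v ∈ ball x (r x), q' v = q₀ ⟨x, hx⟩ v := by
    intro x hx v hv
    have h : ∃ x, x ∈ t ∧ v ∈ ball x (r x) := ⟨x, hx, hv⟩
    have h2 : h.choose = x := by
      by_contra h3
      exact disjoint_left.1 (hdis h.choose_spec.1 hx h3) h.choose_spec.2 hv
    rw [hq']
    simp only
    rw [dif_pos h]
    congr 2
  have hAmem : ∀ v ∈ A, ∃ x, x ∈ t ∧ v ∈ ball x (r x) := by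
    intro v hv
    simp only [hA, mem_iUnion] at hv
    obtain ⟨x, hx, h2⟩ := hv
    exact ⟨x, hx, h2⟩
  have hAO : A ⊆ O := by
    intro v hv
    obtain ⟨x, hx, h2⟩ := hAmem v hv
    exact (hr x hx).2 h2
  have hqq : ∀ v ∈ A, Qm (χ y) (q' v) = q v := by
    intro v hv
    obtain ⟨x, hx, h2⟩ := hAmem v hv
    rw [hq'v x hx v h2]
    exact hq₀ ⟨x, hx⟩ v h2
  refine ⟨A, q', hAO, isOpen_biUnion fun _ _ => isOpen_ball, hnull, hqq, ?_, ?_⟩
  · intro v hv i z hz γ he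
    obtain ⟨x, hx, h2⟩ := hAmem v hv
    rw [hq'v x hx v h2] at he
    obtain ⟨θ, h3, h4, h5⟩ := (hpoly ⟨x, hx⟩).hol v h2 i z hz γ he
    refine ⟨θ, h3, h4, ?_⟩
    filter_upwards [h5, isOpen_ball.mem_nhds h2] with s a b
    rw [hq'v x hx s b, a]
  · intro v hv v' hv' γ he
    refine hinj (hAO hv) (hAO hv') ?_
    rw [← hqq v hv, ← hqq v' hv', he]
    exact (M.eq _ ht _ _).2 ⟨γ, rfl⟩ |>.symm

/-- the preimage of a null set by a slice (at the points where the slice is immersed) -/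
theorem null_slice' (M : Model (n := p + d) f 𝓕 χ Qm) {t : Cm p} (ht : t ∈ 𝓕.T) {N : Set Z}
    (hN : ∀ i, volume {z : Cm d | z ∈ ball (0 : Cm d) 3 ∧ Qm t (𝓕.σ i t z) ∈ N} = 0)
    {q : Cm d → Z} {q' : Cm d → E} {v₀ : Cm d} {r : ℝ}
    (hpoly : PolyIn (𝓕.at t ht) q' v₀ r)
    (hqq : ∀ v ∈ ball v₀ r, Qm t (q' v) = q v) :
    volume {v : Cm d | v ∈ ball v₀ r ∧ q v ∈ N ∧
      ∀ ξ, mfderiv 𝓘(ℂ, Cm d) 𝓘(ℂ, Cm (p + d)) q v ξ = 0 → ξ = 0} = 0 := by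
  refine measure_null_of_locally_null _ fun x hx => ?_
  obtain ⟨hxb, hxN, himm⟩ := hx
  obtain ⟨γ, i, z, hz, he⟩ := 𝓕.cover t ht (q' x)
  have hz3 : z ∈ ball (0 : Cm d) 3 := Sh.mem3 hz
  obtain ⟨θ, h1, h2, h3⟩ := hpoly.hol x hxb i z hz3 γ he.symm
  have h3' : ∀ᶠ s in 𝓝 x, q s = Qm t (𝓕.σ i t (θ s)) := by
    filter_upwards [h3, isOpen_ball.mem_nhds hxb] with s a b
    rw [← hqq s b, a]
    exact (M.eq _ ht _ _).2 ⟨γ, rfl⟩ |>.symm
  have hF : ContMDiffAt 𝓘(ℂ, Cm d) 𝓘(ℂ, Cm (p + d)) ω (fun w => Qm t (𝓕.σ i t w)) (θ x) := by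
    rw [h2]
    exact contMDiffAt_slice (M.hol i t ht z hz3)
  have hinj : ∀ ξ, fderiv ℂ θ x ξ = 0 → ξ = 0 := by
    intro ξ hξ
    refine himm ξ ?_
    have hθm : MDifferentiableAt 𝓘(ℂ, Cm d) 𝓘(ℂ, Cm d) θ x :=
      h1.differentiableAt.mdifferentiableAt
    have h4 := mfderiv_comp_apply x (g := fun w => Qm t (𝓕.σ i t w)) (f := θ)
      (hF.mdifferentiableAt (by simp)) hθm ξ
    have h5 : q =ᶠ[𝓝 x] (fun w => Qm t (𝓕.σ i t w)) ∘ θ := h3'
    have h6 : mfderiv 𝓘(ℂ, Cm d) 𝓘(ℂ, Cm (p + d)) q x =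
        mfderiv 𝓘(ℂ, Cm d) 𝓘(ℂ, Cm (p + d)) ((fun w => Qm t (𝓕.σ i t w)) ∘ θ) x := h5.mfderiv_eq
    have h7 : mfderiv 𝓘(ℂ, Cm d) 𝓘(ℂ, Cm d) θ x ξ = 0 := by
      rw [mfderiv_eq_fderiv]
      exact hξ
    rw [h6]
    rw [h7] at h4
    exact h4.trans (map_zero _)
  -- the local inverse
  set T : Cm d ≃L[ℂ] Cm d := (LinearEquiv.ofInjectiveEndo
    (fderiv ℂ θ x : Cm d →ₗ[ℂ] Cm d) (LinearMap.ker_eq_bot.1 (LinearMap.ker_eq_bot'.2
      hinj))).toContinuousLinearEquiv with hT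
  have hTd : HasFDerivAt θ (T : Cm d →L[ℂ] Cm d) x := by
    have h4 : (T : Cm d →L[ℂ] Cm d) = fderiv ℂ θ x := by
      ext w
      rfl
    rw [h4]
    exact h1.differentiableAt.hasFDerivAt
  have hcd : ContDiffAt ℂ ω θ x := h1.contDiffAt
  have hn0 : (ω : WithTop ℕ∞) ≠ 0 := by simp
  set g := hcd.localInverse hTd hn0 with hg
  have hgc : ContDiffAt ℂ ω g (θ x) := hcd.to_localInverse hTd hn0
  have hgl : ∀ᶠ s in 𝓝 x, g (θ s) = s := (hcd.hasStrictFDerivAt' hTd hn0).eventually_left_inverse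
  have hga : ∀ᶠ w in 𝓝 (θ x), AnalyticAt ℂ g w := hgc.analyticAt.eventually_analyticAt
  have hball : ∀ᶠ w in 𝓝 (θ x), w ∈ ball (0 : Cm d) 3 := by
    rw [h2]
    exact isOpen_ball.mem_nhds hz3
  set S : Set (Cm d) := {w | AnalyticAt ℂ g w ∧ w ∈ ball (0 : Cm d) 3 ∧
    Qm t (𝓕.σ i t w) ∈ N} with hS
  have hS0 : volume S = 0 := by
    refine measure_mono_null ?_ (hN i)
    rintro w ⟨-, b1, b2⟩
    exact ⟨b1, b2⟩
  have hgS : volume (g '' S) = 0 :=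
    addHaar_image_eq_zero_of_differentiableOn_of_addHaar_eq_zero volume
      (fun w hw => (hw.1.differentiableAt.restrictScalars ℝ).differentiableWithinAt) hS0
  refine ⟨{s | g (θ s) = s ∧ (AnalyticAt ℂ g (θ s) ∧ θ s ∈ ball (0 : Cm d) 3) ∧
    q s = Qm t (𝓕.σ i t (θ s))} ∩ {v | v ∈ ball v₀ r ∧ q v ∈ N ∧
      ∀ ξ, mfderiv 𝓘(ℂ, Cm d) 𝓘(ℂ, Cm (p + d)) q v ξ = 0 → ξ = 0}, ?_, ?_⟩
  · refine inter_mem ?_ self_mem_nhdsWithin
    exact mem_nhdsWithin_of_mem_nhds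
      (hgl.and ((h1.continuousAt.eventually (hga.and hball)).and h3'))
  · refine measure_mono_null ?_ hgS
    rintro s ⟨⟨b1, ⟨b2, b3⟩, b4⟩, -, b5, -⟩
    refine ⟨θ s, ⟨b2, b3, ?_⟩, b1⟩
    rw [← b4]
    exact b5

end model

end Vale.Agent.P281.H225.KC
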