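import Vale.Agent.P281.H713.ZE

/-!
# P281, class C (helper225), KC: forms on the fibres, change of fibre charts, extension across a
set with the Hartogs property
-/

open scoped Manifold ContDiff Topology ENNReal NNReal
open Set Filter Metric Module MeasureTheory

namespace Vale.Agent.P281.H225.KC

open Vale.Agent.P281 Vale.Agent.P281.MF Vale.Agent.P281.ISO Vale.Agent.P281.ELL
open Vale.Agent.P281.H713

set_option linter.unusedSectionVars false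

universe u

variable {E E' : Type} [NormedAddCommGroup E] [NormedSpace ℂ E] [FiniteDimensional ℂ E]
  [NormedAddCommGroup E'] [NormedSpace ℂ E'] [FiniteDimensional ℂ E']
variable {X Y : Type u} [TopologicalSpace X] [ChartedSpace E X] [IsManifold 𝓘(ℂ, E) ω X]
  [TopologicalSpace Y] [ChartedSpace E' Y] [IsManifold 𝓘(ℂ, E') ω Y]
variable {d t : ℕ} {f : X → Y} {M : ℕ}

/-- the determinant of the differentials of `ζ` -/
noncomputable def De (E : Type) [NormedAddCommGroup E] [NormedSpace ℂ E] {X : Type u}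
    [TopologicalSpace X] [ChartedSpace E X] {d : ℕ} (ζ : Fin d → X → ℂ) (z : X) (ξ : Fin d → E) :
    ℂ := (Matrix.of fun k l => J.dif E (ζ k) z (ξ l)).det

/-- the kernel condition -/
theorem fc_inj {ζ : Fin d → X → ℂ} {x : X} (h : IsFibreChart E E' f ζ x) :
    ∀ ξ, dM E E' f x ξ = 0 → dV E (vec ζ) x ξ = 0 → ξ = 0 := fun ξ h1 h2 =>
  h.2 ξ h1 fun l => by
    have h3 := dV_vec h.1 ξ l
    rw [h2] at h3
    exact h3.symm

/-- a fibre chart is one near `x` -/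
theorem fc_near (hf : ∀ x, HolM E E' f x) (e₀ : E ≃L[ℂ] (E' × (Fin d → ℂ))) {ζ : Fin d → X → ℂ}
    {x : X} (h : IsFibreChart E E' f ζ x) : ∀ᶠ z in 𝓝 x, IsFibreChart E E' f ζ z := by
  filter_upwards [ker_eventually hf e₀ (holV_vec h.1) (fc_inj h),
    (Filter.eventually_all).2 fun l => HolV.eventually (h.1 l)] with z h2 h3
  refine ⟨h3, fun ξ h7 h8 => h2 ξ h7 ?_⟩
  funext l
  rw [dV_vec h3]
  exact h8 l

/-- frames -/
theorem fc_frame (e₀ : E ≃L[ℂ] (E' × (Fin d → ℂ))) {ζ : Fin d → X → ℂ}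
    {x : X} (h : IsFibreChart E E' f ζ x) : ∃ T : (Fin d → ℂ) →L[ℂ] E,
      (∀ w, dM E E' f x (T w) = 0) ∧ ∀ w, dV E (vec ζ) x (T w) = w :=
  exists_frame_of e₀ (fc_inj h)

/-- the differentials of fibre coordinates on vertical vectors -/
theorem De_vert {ζ ζ' : Fin d → X → ℂ} {x : X} (h : IsFibreChart E E' f ζ x)
    {T : (Fin d → ℂ) →L[ℂ] E}
    (hT : ∀ w, dM E E' f x (T w) = 0) (hT' : ∀ w, dV E (vec ζ) x (T w) = w) {ξ : Fin d → E}
    (hξ : IsVertical E E' f x ξ) :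
    De E ζ' x ξ = De E ζ' x (fun l => T (Pi.single l 1)) * De E ζ x ξ := by
  have h1 : ∀ l, ξ l = T (dV E (vec ζ) x (ξ l)) := by
    intro l
    have h2 : ξ l - T (dV E (vec ζ) x (ξ l)) = 0 := by
      refine fc_inj h _ ?_ ?_
      · rw [map_sub, hT, sub_zero]
        exact hξ l
      · rw [map_sub, hT', sub_self]
    exact sub_eq_zero.1 h2
  unfold De
  rw [← Matrix.det_mul]
  congr 1
  ext k l
  simp only [Matrix.of_apply, Matrix.mul_apply]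
  have h3 : ∀ w : Fin d → ℂ, J.dif E (ζ' k) x (T w) =
      ∑ m, J.dif E (ζ' k) x (T (Pi.single m 1)) * w m := by
    intro w
    have h4 : w = ∑ m, w m • (Pi.single m (1 : ℂ) : Fin d → ℂ) := by
      funext j
      simp [Finset.sum_apply, Pi.single_apply]
    conv_lhs => rw [h4]
    rw [map_sum, map_sum]
    refine Finset.sum_congr rfl fun m _ => ?_
    rw [map_smul, map_smul, smul_eq_mul, mul_comm]
  conv_lhs => rw [h1 l]
  rw [h3]
  refine Finset.sum_congr rfl fun m _ => ?_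
  congr 1
  exact dV_vec h.1 _ m

theorem De_frame {ζ : Fin d → X → ℂ} {x : X} (h : IsFibreChart E E' f ζ x)
    {T : (Fin d → ℂ) →L[ℂ] E} (hT' : ∀ w, dV E (vec ζ) x (T w) = w) :
    De E ζ x (fun l => T (Pi.single l 1)) = 1 := by
  unfold De
  have h1 : (Matrix.of fun k l => J.dif E (ζ k) x (T (Pi.single l 1))) =
      (1 : Matrix (Fin d) (Fin d) ℂ) := by
    ext k l
    simp only [Matrix.of_apply]
    have h2 : J.dif E (ζ k) x (T (Pi.single l 1)) = dV E (vec ζ) x (T (Pi.single l 1)) k :=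
      (dV_vec h.1 _ k).symm
    rw [h2, hT', Matrix.one_apply, Pi.single_apply]
  rw [h1, Matrix.det_one]

/-- **change of fibre charts** -/
theorem fc_trans (hf : ∀ x, HolM E E' f x) (e₀ : E ≃L[ℂ] (E' × (Fin d → ℂ)))
    {ζ ζ' : Fin d → X → ℂ} {x : X} (h : IsFibreChart E E' f ζ x)
    (h' : IsFibreChart E E' f ζ' x) : ∃ R : X → ℂ, HolV E R x ∧ ∀ᶠ z in 𝓝 x, ∀ ξ,
      IsVertical E E' f z ξ → De E ζ' z ξ = R z * De E ζ z ξ := by
  obtain ⟨J₀, hJ, hJe⟩ := JP_local hf e₀ (mem_chart_source E x) (mem_chart_source E' (f x))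
    (holV_vec h.1)
  obtain ⟨J₁, hJ', hJe'⟩ := JP_local hf e₀ (mem_chart_source E x) (mem_chart_source E' (f x))
    (holV_vec h'.1)
  have hne : ∀ᶠ z in 𝓝 x, IsFibreChart E E' f ζ z := fc_near hf e₀ h
  have hjx : ∀ᶠ z in 𝓝 x, jac E (chartAt E x) z ≠ 0 := by
    filter_upwards [(chartAt E x).open_source.mem_nhds (mem_chart_source E x)] with z hz
    exact jac_chart_ne_zero hz
  have hjy : ∀ᶠ z in 𝓝 x, jac E' (chartAt E' (f x)) (f z) ≠ 0 := by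
    filter_upwards [(hf x).continuousAt.eventually ((chartAt E' (f x)).open_source.mem_nhds
      (mem_chart_source E' (f x)))] with z hz
    exact jac_chart_ne_zero hz
  have hJ0 : ∀ᶠ z in 𝓝 x, J₀ z ≠ 0 := by
    filter_upwards [hJe, hne, hjx, hjy] with z h1 h2 h3 h4 h5
    rw [h5, zero_mul] at h1
    exact mul_ne_zero h4 (JP_ne_zero e₀ (fc_inj h2)) h1.symm
  refine ⟨fun z => J₁ z / J₀ z, hJ'.div hJ hJ0.self_of_nhds, ?_⟩
  filter_upwards [hJe, hJe', hne, fc_near hf e₀ h', hjx, hjy, hJ0] with z h1 h2 h3 h4 h5 h6 h7 ξ hξ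
  obtain ⟨T, hT, hT'⟩ := fc_frame e₀ h3
  rw [De_vert h3 hT hT' hξ]
  congr 1
  have h8 : JP e₀ (dM E E' f z) (dV E (vec ζ') z) =
      De E ζ' z (fun l => T (Pi.single l 1)) * JP e₀ (dM E E' f z) (dV E (vec ζ) z) :=
    frame_eq e₀ h4.1 (fun ξ a b => h4.2 ξ a b) hT hT'
  rw [h8] at h2
  rw [eq_div_iff h7]
  have h9 : (De E ζ' z (fun l => T (Pi.single l 1)) * J₀ z) * jac E (chartAt E x) z =
      J₁ z * jac E (chartAt E x) z := by
    rw [mul_assoc, h1, h2]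
    ring
  exact mul_right_cancel₀ h5 h9

/-- Near `x`, the `η i` are the forms `c i (dζ)^M` on the fibres. -/
def LocF (E E' : Type) [NormedAddCommGroup E] [NormedSpace ℂ E] [NormedAddCommGroup E']
    [NormedSpace ℂ E'] {X Y : Type u} [TopologicalSpace X] [ChartedSpace E X] [TopologicalSpace Y]
    [ChartedSpace E' Y] {d t : ℕ} (f : X → Y) (M : ℕ) (η : Fin t → X → (Fin d → E) → ℂ) (x : X) :
    Prop :=
  ∃ (ζ : Fin d → X → ℂ) (c : Fin t → X → ℂ), IsFibreChart E E' f ζ x ∧ (∀ i, HolV E (c i) x) ∧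
    ∀ᶠ z in 𝓝 x, ∀ i ξ, IsVertical E E' f z ξ → η i z ξ = c i z * De E ζ z ξ ^ M

theorem locF_iff {η : Fin t → X → (Fin d → E) → ℂ} {x : X} :
    IsFibreForms E E' f M (fun _ => 0) η x ↔ LocF E E' f M η x := by
  constructor
  · intro h
    obtain ⟨ζ, c, h1, h2, h3⟩ := h ∅ (fun _ _ => 0) (fun D hD => absurd rfl hD)
      (fun D hD => absurd hD (Finset.notMem_empty D))
    refine ⟨ζ, c, h1, h2, ?_⟩
    filter_upwards [h3] with z hz i ξ hξ
    have h4 := hz (by simp) i ξ hξ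
    unfold De
    simpa using h4
  · rintro ⟨ζ, c, h1, h2, h3⟩ T e - -
    refine ⟨ζ, c, h1, h2, ?_⟩
    filter_upwards [h3] with z hz _ i ξ hξ
    simp only [pow_zero, Finset.prod_const_one, mul_one]
    exact hz i ξ hξ

/-- the coefficients with respect to another fibre chart -/
theorem LocF.chart (hf : ∀ x, HolM E E' f x) (e₀ : E ≃L[ℂ] (E' × (Fin d → ℂ)))
    {η : Fin t → X → (Fin d → E) → ℂ} {x : X} (h : LocF E E' f M η x) {ζ' : Fin d → X → ℂ}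
    (hζ' : IsFibreChart E E' f ζ' x) : ∃ c : Fin t → X → ℂ, (∀ i, HolV E (c i) x) ∧
      ∀ᶠ z in 𝓝 x, ∀ i ξ, IsVertical E E' f z ξ → η i z ξ = c i z * De E ζ' z ξ ^ M := by
  obtain ⟨ζ, c, h1, h2, h3⟩ := h
  obtain ⟨R, hR, hRe⟩ := fc_trans hf e₀ hζ' h1
  refine ⟨fun i z => c i z * R z ^ M, fun i => (h2 i).mul (hR.pow M), ?_⟩
  filter_upwards [h3, hRe] with z a b i ξ hξ
  rw [a i ξ hξ, b ξ hξ, mul_pow, mul_assoc]

/-- Holomorphic functions extend across `N`. -/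
def Har (E : Type) [NormedAddCommGroup E] [NormedSpace ℂ E] {X : Type u} [TopologicalSpace X]
    [ChartedSpace E X] (N : Set X) : Prop :=
  ∀ (O : Set X) (g : X → ℂ), IsOpen O → (∀ x ∈ O, x ∉ N → HolV E g x) →
    ∃ g' : X → ℂ, (∀ x ∈ O, HolV E g' x) ∧ ∀ x ∈ O, x ∉ N → g' x = g x

open Classical in
/-- a vertical frame dual to `ζ` -/
noncomputable def FR (E E' : Type) [NormedAddCommGroup E] [NormedSpace ℂ E]
    [NormedAddCommGroup E'] [NormedSpace ℂ E'] {X Y : Type u} [TopologicalSpace X]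
    [ChartedSpace E X] [TopologicalSpace Y] [ChartedSpace E' Y] {d : ℕ} (f : X → Y)
    (ζ : Fin d → X → ℂ) (z : X) : Fin d → E :=
  if h : ∃ ξ, IsVertical E E' f z ξ ∧ De E ζ z ξ = 1 then h.choose else 0

theorem FR_spec (e₀ : E ≃L[ℂ] (E' × (Fin d → ℂ))) {ζ : Fin d → X → ℂ} {z : X}
    (h : IsFibreChart E E' f ζ z) :
    IsVertical E E' f z (FR E E' f ζ z) ∧ De E ζ z (FR E E' f ζ z) = 1 := by
  obtain ⟨T, hT, hT'⟩ := fc_frame e₀ h
  have h1 : ∃ ξ, IsVertical E E' f z ξ ∧ De E ζ z ξ = 1 :=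
    ⟨fun l => T (Pi.single l 1), fun l => hT _, De_frame h hT'⟩
  rw [FR, dif_pos h1]
  exact h1.choose_spec

/-- **extension of the forms across `N`** -/
theorem forms_ext (hf : ∀ x, HolM E E' f x) (e₀ : E ≃L[ℂ] (E' × (Fin d → ℂ))) {N : Set X}
    (hNd : Dense Nᶜ) (har : Har E N) {W : Set Y} (hW : IsOpen W)
    (hchart : ∀ x, f x ∈ W → ∃ ζ : Fin d → X → ℂ, IsFibreChart E E' f ζ x)
    {η₀ : Fin t → X → (Fin d → E) → ℂ} (h0 : ∀ x, f x ∈ W → x ∉ N → LocF E E' f M η₀ x) :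
    ∃ η : Fin t → X → (Fin d → E) → ℂ, (∀ x, f x ∈ W → LocF E E' f M η x) ∧
      ∀ x, f x ∈ W → x ∉ N → ∀ i ξ, IsVertical E E' f x ξ → η i x ξ = η₀ i x ξ := by
  classical
  -- the charts
  have h1 : ∀ a : {x // f x ∈ W}, ∃ (ζ : Fin d → X → ℂ) (O : Set X), IsOpen O ∧ a.1 ∈ O ∧
      (∀ z ∈ O, IsFibreChart E E' f ζ z) ∧ ∀ z ∈ O, f z ∈ W := by
    rintro ⟨x, hx⟩
    obtain ⟨ζ, hζ⟩ := hchart x hx
    have h2 : ∀ᶠ z in 𝓝 x, IsFibreChart E E' f ζ z ∧ f z ∈ W :=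
      (fc_near hf e₀ hζ).and ((hf x).continuousAt.eventually (hW.mem_nhds hx))
    obtain ⟨O, h3, h4, h5⟩ := eventually_nhds_iff.1 h2
    exact ⟨ζ, O, h4, h5, fun z hz => (h3 z hz).1, fun z hz => (h3 z hz).2⟩
  choose ζ O hO hxO hζ hOW using h1
  -- the coefficients
  have h2 : ∀ (a : {x // f x ∈ W}) (i : Fin t), ∃ c : X → ℂ, (∀ z ∈ O a, HolV E c z) ∧
      ∀ z ∈ O a, z ∉ N → c z = η₀ i z (FR E E' f (ζ a) z) := by
    intro a i
    refine har (O a) _ (hO a) fun z hz hzN => ?_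
    obtain ⟨c, hc, hce⟩ := (h0 z (hOW a z hz) hzN).chart hf e₀ (hζ a z hz)
    refine (hc i).congr ?_
    filter_upwards [hce, (hO a).mem_nhds hz] with z' b1 b2
    obtain ⟨b3, b4⟩ := FR_spec e₀ (hζ a z' b2)
    rw [b1 i _ b3, b4, one_pow, mul_one]
  choose c hc hce using h2
  have h3 : ∀ (a : {x // f x ∈ W}), ∀ z ∈ O a, z ∉ N → ∀ i ξ, IsVertical E E' f z ξ →
      η₀ i z ξ = c a i z * De E (ζ a) z ξ ^ M := by
    intro a z hz hzN i ξ hξ
    obtain ⟨c', hc', hce'⟩ := (h0 z (hOW a z hz) hzN).chart hf e₀ (hζ a z hz)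
    obtain ⟨b3, b4⟩ := FR_spec e₀ (hζ a z hz)
    rw [hce a i z hz hzN, hce'.self_of_nhds i _ b3, b4, one_pow, mul_one]
    exact hce'.self_of_nhds i ξ hξ
  refine ⟨fun i x ξ => if hx : f x ∈ W then c ⟨x, hx⟩ i x * De E (ζ ⟨x, hx⟩) x ξ ^ M else 0,
    fun x hx => ⟨ζ ⟨x, hx⟩, c ⟨x, hx⟩, hζ _ x (hxO ⟨x, hx⟩), fun i => hc _ i x (hxO ⟨x, hx⟩), ?_⟩,
    fun x hx hxN i ξ hξ => ?_⟩
  · filter_upwards [(hO ⟨x, hx⟩).mem_nhds (hxO ⟨x, hx⟩)] with z hz i ξ hξ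
    have hzW := hOW _ z hz
    rw [dif_pos hzW]
    obtain ⟨R, hR, hRe⟩ := fc_trans hf e₀ (hζ ⟨x, hx⟩ z hz) (hζ _ z (hxO ⟨z, hzW⟩))
    have h4 : c ⟨z, hzW⟩ i z * R z ^ M = c ⟨x, hx⟩ i z := by
      have h5 : HolV E (fun z' => c ⟨z, hzW⟩ i z' * R z' ^ M) z :=
        (hc _ i z (hxO ⟨z, hzW⟩)).mul (hR.pow M)
      have h6 : HolV E (c ⟨x, hx⟩ i) z := hc _ i z hz
      have h7 : ∃ᶠ z' in 𝓝 z, z' ∉ N := mem_closure_iff_frequently.1 (hNd z)
      have h8 : ∀ᶠ z' in 𝓝 z, z' ∉ N →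
          c ⟨z, hzW⟩ i z' * R z' ^ M = c ⟨x, hx⟩ i z' := by
        filter_upwards [hRe, (hO ⟨x, hx⟩).mem_nhds hz, (hO ⟨z, hzW⟩).mem_nhds (hxO ⟨z, hzW⟩)]
          with z' b1 b2 b3 b4
        obtain ⟨b5, b6⟩ := FR_spec e₀ (hζ ⟨x, hx⟩ z' b2)
        have b7 := h3 ⟨x, hx⟩ z' b2 b4 i _ b5
        have b8 := h3 ⟨z, hzW⟩ z' b3 b4 i _ b5
        rw [b7, b1 _ b5, b6] at b8
        simp only [one_pow, mul_one] at b8
        exact b8.symm
      by_contra h9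
      have h10 : ∀ᶠ z' in 𝓝 z, c ⟨z, hzW⟩ i z' * R z' ^ M ≠ c ⟨x, hx⟩ i z' := by
        have h11 : ContinuousAt (fun z' => c ⟨z, hzW⟩ i z' * R z' ^ M - c ⟨x, hx⟩ i z') z :=
          h5.continuousAt.sub h6.continuousAt
        exact (h11.eventually_ne (sub_ne_zero.2 h9)).mono fun z' hz' => sub_ne_zero.1 hz'
      obtain ⟨z', b1, b2, b3⟩ := (h7.and_eventually (h8.and h10)).exists
      exact b3 (b2 b1)
    rw [hRe.self_of_nhds ξ hξ, mul_pow, ← mul_assoc, h4]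
  · simp only [dif_pos hx]
    exact (h3 _ x (hxO ⟨x, hx⟩) hxN i ξ hξ).symm

end Vale.Agent.P281.H225.KC
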