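import Vale.Agent.P281.H225.KC.CoreK
import Vale.Agent.P281.H64.TS.Fin
import Vale.Agent.P281.H737.C.Null
import Vale.Agent.P281.H485.Gen.Har
import Vale.Agent.P281.H737.Gen.Exc

/-!
# P281, class C (helper225), KC3: T-S for the class C
-/

open Set Filter Metric MeasureTheory Vale.Agent.P281 Vale.Agent.P281.H713
open Vale.Agent.P272.K (Chart IsKahler)
open Vale.Agent.P281.H713.TZ Vale.Agent.P281.H64
open Vale.Agent.P281.H64.Gen
open Vale.Agent.P281.H64.TK.TS
open scoped Topology ContDiff Manifold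

noncomputable section

namespace Vale.Agent.P281.H225.KC

theorem globK : GlobKStmt :=
  H399.TS.globK TK.inputs aMark H364.S.grauert
    (H406.TS.holP H559.TS.good_stmt H352.TS.poinStmt aCoEx aCoCob)
    (H834.TS.kConst H559.TS.good_stmt aCoCob) (H747.TS.h20ConstStmt aMark aHodge H191.TS.sig)
    H747.TS.pullMarkStmt

theorem perK : PerStmt := H594.TS.per H125.TS.c1 aHodge

/-- **T-S for the class C**, the hypothesis on the fibres in the form of `NDegK` -/
theorem tscN {p : ℕ} {X Y X₁ : Type} [TopologicalSpace X] [ChartedSpace (Cm (p + 2)) X]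
    [TopologicalSpace Y] [ChartedSpace (Cm p) Y] [TopologicalSpace X₁]
    [ChartedSpace (Cm (p + 2)) X₁] {f : X → Y} {u : X₁ → X} {Δ : Set X → ℝ}
    (h : H511.Surf.IsFibration (Cm (p + 2)) (Cm p) f Δ) (hu : TZ.S.IsModif (Cm (p + 2)) u)
    (hw : ∃ w : Chart (p + 2) X₁ → Cm (p + 2) → Matrix (Fin (p + 2)) (Fin (p + 2)) ℂ,
      IsKahler w) :
    ∃ S : Set Y, IsSmallSet (Cm p) S ∧ IsProperFibration (n := p + 2) (p := p) f S ∧
      IsProperFibration (n := p + 2) (p := p) (fun z => f (u z)) S ∧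
      ∀ y ∉ S, (∃ N, 0 < N ∧ NDegK p N (fun z => f (u z)) y) →
        TZ.S.kodF (p + 2) p Δ (id : X → X) f ≤ TZ.S.kodX (Cm (p + 2)) Δ :=
  tsc_core globK TK.inputs.k perK H747.TS.pullMarkStmt H191.TS.twoMarkStmt TK.inputs.ab
    H737.C.null H303.UF.crit H383.Gen.compl H485.Gen.har H737.Gen.exc H383.U.liftT
    H383.C.cTameOK h hu hw

/-- **T-S for the class C** -/
theorem tsc : TSCStmt :=
  tsc_of globK TK.inputs.k perK H747.TS.pullMarkStmt H191.TS.twoMarkStmt H22.TS.fibK
    TK.inputs.ab H737.C.null H303.UF.crit H383.Gen.compl H485.Gen.har H737.Gen.exc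
    H383.U.liftT H383.C.cTameOK

end Vale.Agent.P281.H225.KC
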