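import Vale.Agent.P281.H225.KC.CoreH
import Vale.Agent.P281.H225.KC.FinK
import Vale.Agent.P281.H83.HK.Plug

/-!
# P281, class C (helper225), KC3: T-HK for the class C, from the Hodge index theorem and the norm
-/

open Set Filter Metric MeasureTheory Vale.Agent.P281 Vale.Agent.P281.H713
open Vale.Agent.P272.K (Chart IsKahler)
open Vale.Agent.P281.H713.TZ Vale.Agent.P281.H64
open Vale.Agent.P281.H64.Gen
open Vale.Agent.P281.H64.TK.TS
open Vale.Agent.P281.H83.HK
open scoped Topology ContDiff Manifold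

noncomputable section

namespace Vale.Agent.P281.H225.KC

theorem glob2 (hHI : HIStmt) (hRA : RatioStmt) : Glob2Stmt :=
  H399.HK.glob TK.inputs aMark
    (H834.HK.gen2Const aMark H864.TS.pull aForms aPos hHI aPM aKC H191.TS.sig)
    (H594.HK.per2 hHI aForms aPos) aPM H594.HK.grauert2 H702.HK.holP2 aKC hRA aForms

/-- **T-HK for the class C**, the hypothesis on the fibres in the form of `NDeg2` -/
theorem thkcN (hHI : HIStmt) (hRA : RatioStmt) {p d : ℕ} {X Y X₁ : Type} [TopologicalSpace X]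
    [ChartedSpace (H64.Cm (p + d)) X]
    [TopologicalSpace Y] [ChartedSpace (H64.Cm p) Y] [TopologicalSpace X₁]
    [ChartedSpace (H64.Cm (p + d)) X₁] {f : X → Y} {u : X₁ → X} {Δ : Set X → ℝ} (hd : 2 ≤ d)
    (h : H511.Surf.IsFibration (H64.Cm (p + d)) (H64.Cm p) f Δ)
    (hu : TZ.S.IsModif (H64.Cm (p + d)) u)
    (hw : ∃ w : Chart (p + d) X₁ → H64.Cm (p + d) → Matrix (Fin (p + d)) (Fin (p + d)) ℂ,
      IsKahler w) :
    ∃ S : Set Y, IsSmallSet (H64.Cm p) S ∧ IsProperFibration (n := p + d) (p := p) f S ∧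
      IsProperFibration (n := p + d) (p := p) (fun z => f (u z)) S ∧
      ∀ y ∉ S, (∃ N, 0 < N ∧ NDeg2 p d N (fun z => f (u z)) y) →
        TZ.S.kodF (p + d) p Δ (id : X → X) f ≤ TZ.S.kodX (H64.Cm (p + d)) Δ :=
  thkc_core (glob2 hHI hRA) TK.inputs.k aForms (H594.HK.per2 hHI aForms aPos) aPM
    H191.HK.twoMark2 TK.inputs.ab H737.C.null H303.UF.crit H383.Gen.compl H485.Gen.har
    H737.Gen.exc H383.U.liftT H383.C.cTameOK hd h hu hw

/-- **T-HK for the class C** -/
theorem thkc (hHI : HIStmt) (hRA : RatioStmt) : THKCStmt :=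
  thkc_of (glob2 hHI hRA) TK.inputs.k aForms (H594.HK.per2 hHI aForms aPos) aPM
    H191.HK.twoMark2 H22.HK.fib2 TK.inputs.ab H737.C.null H303.UF.crit H383.Gen.compl
    H485.Gen.har H737.Gen.exc H383.U.liftT H383.C.cTameOK

end Vale.Agent.P281.H225.KC
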