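import Vale.Agent.P281.H225.KC.Cov
import Vale.Agent.P281.H225.KC.Desc
import Vale.Agent.P281.H383.C.Mod

/-!
# P281, class C (helper225), KC1: the descent for a modification `u : X₁ → X`
-/

open Set Filter Metric MeasureTheory Vale.Agent.P281 Vale.Agent.P281.H713
open Vale.Agent.P272.K (Chart IsKahler IsHermitian)
open Vale.Agent.P281.MF Vale.Agent.P281.ISO
open Vale.Agent.P281.H713.TZ Vale.Agent.P281.H64
open Vale.Agent.P281.H64.Gen
open Vale.Agent.P281.H64.TK (Fam Model)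
open Vale.Agent.P281.H603.C (Ctx NullStmt)
open Vale.Agent.P281.H603.TE (lift_polyM)
open Vale.Agent.P281.H383.C (mctx mctx_ok exc_id)
open scoped Topology ContDiff Manifold

set_option linter.unusedSectionVars false

noncomputable section

namespace Vale.Agent.P281.H225.KC

/-- fibre charts of a submersion -/
theorem fc_of_subm {E E' : Type} [NormedAddCommGroup E] [NormedSpace ℂ E] [FiniteDimensional ℂ E]
    [NormedAddCommGroup E'] [NormedSpace ℂ E'] [FiniteDimensional ℂ E'] {X Y : Type}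
    [TopologicalSpace X] [ChartedSpace E X] [IsManifold 𝓘(ℂ, E) ω X]
    [TopologicalSpace Y] [ChartedSpace E' Y] [IsManifold 𝓘(ℂ, E') ω Y] {d : ℕ} {f : X → Y}
    (e₀ : E ≃L[ℂ] (E' × (Fin d → ℂ))) {x : X} (h : Function.Surjective (dM E E' f x)) :
    ∃ ζ : Fin d → X → ℂ, IsFibreChart E E' f ζ x := by
  classical
  set A : E →ₗ[ℂ] E' := ((dM E E' f x : E →L[ℂ] E') : E →ₗ[ℂ] E') with hA
  have hfin : Module.finrank ℂ (LinearMap.ker A) = d := by
    have h1 := A.finrank_range_add_finrank_ker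
    have h2 : LinearMap.range A = ⊤ := LinearMap.range_eq_top.2 h
    rw [h2, finrank_top, e₀.toLinearEquiv.finrank_eq, Module.finrank_prod] at h1
    simp only [Module.finrank_fintype_fun_eq_card, Fintype.card_fin] at h1
    omega
  let T : LinearMap.ker A ≃ₗ[ℂ] (Fin d → ℂ) := LinearEquiv.ofFinrankEq _ _ (by
    rw [hfin]
    simp)
  obtain ⟨r, hr⟩ := (LinearMap.ker A).subtype.exists_leftInverse_of_injective
    (LinearMap.ker_eq_bot.2 (Submodule.injective_subtype _))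
  set φ := chartAt E x with hφ
  have hxs : x ∈ φ.source := mem_chart_source E x
  obtain ⟨D, hD⟩ := dV_chart_leftInv (E := E) hxs
  let P : E →L[ℂ] (Fin d → ℂ) := LinearMap.toContinuousLinearMap
    (((T : LinearMap.ker A →ₗ[ℂ] (Fin d → ℂ)).comp r).comp (D : E →ₗ[ℂ] E))
  have hP : ∀ k, HolV E (fun z => P (φ z) k) x := fun k =>
    HolV.comp_contDiff (G := fun w : E => P w k)
      (((ContinuousLinearMap.proj (R := ℂ) (φ := fun _ : Fin d => ℂ) k).comp P).contDiff.contDiffAt)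
      (HolV.chart hxs)
  refine ⟨fun k z => P (φ z) k, hP, fun ξ h1 h2 => ?_⟩
  have h3 : ∀ k, P (dV E (φ : X → E) x ξ) k = 0 := by
    intro k
    have h4 := dV_comp_contDiff (G := fun w : E => P w k)
      (((ContinuousLinearMap.proj (R := ℂ) (φ := fun _ : Fin d => ℂ) k).comp P).contDiff.contDiffAt
        (x := φ x)) (HolV.chart hxs)
    have h5 := h2 k
    have h6 : fderiv ℂ (fun w : E => P w k) (φ x) =
        (ContinuousLinearMap.proj (R := ℂ) (φ := fun _ : Fin d => ℂ) k).comp P :=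
      ((ContinuousLinearMap.proj (R := ℂ) (φ := fun _ : Fin d => ℂ) k).comp P).fderiv
    rw [h6] at h4
    have h7 := congrArg (fun L : E →L[ℂ] ℂ => L ξ) h4
    exact h7.symm.trans h5
  have h8 : P (dV E (φ : X → E) x ξ) = T (r ξ) := by
    have h9 := congrArg (fun L : E →L[ℂ] E => L ξ) hD
    have h10 : D (dV E (φ : X → E) x ξ) = ξ := h9
    show T (r (D (dV E (φ : X → E) x ξ))) = _
    rw [h10]
  have h9 : T (r ξ) = 0 := by
    rw [← h8]
    funext k
    exact h3 k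
  have h10 : r ξ = 0 := (T.map_eq_zero_iff).1 h9
  have h11 : A ξ = 0 := h1
  have h12 := congrArg (fun L : LinearMap.ker A →ₗ[ℂ] LinearMap.ker A => L ⟨ξ, h11⟩) hr
  have h13 : r ξ = ⟨ξ, h11⟩ := h12
  rw [h10] at h13
  exact (congrArg Subtype.val h13).symm

variable {p d : ℕ} {X Y X₁ : Type} [TopologicalSpace X] [T2Space X] [CompactSpace X]
  [ChartedSpace (Cm (p + d)) X] [IsManifold 𝓘(ℂ, Cm (p + d)) ω X]
  [TopologicalSpace Y] [T2Space Y] [ChartedSpace (Cm p) Y] [IsManifold 𝓘(ℂ, Cm p) ω Y]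
  [TopologicalSpace X₁] [T2Space X₁] [CompactSpace X₁] [ChartedSpace (Cm (p + d)) X₁]
  [IsManifold 𝓘(ℂ, Cm (p + d)) ω X₁] {f : X → Y} {u : X₁ → X}
  {w : Chart (p + d) X₁ → Cm (p + d) → Matrix (Fin (p + d)) (Fin (p + d)) ℂ}

/-- the slices of `f` meet the exceptional locus in a null set -/
theorem null_poly (hd : 0 < d) (ab : TK.ABStmt) (hNull : NullStmt)
    (hC : (mctx (p := p) (d := d) f u w).Ok) {S : Set Y}
    (hP : IsProperFibration (n := p + d) (p := p) f S)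
    (hP₁ : IsProperFibration (n := p + d) (p := p) (fun z => f (u z)) S)
    {q : Cm d → X} {v₀ : Cm d} {r : ℝ} (hq : IsPolydisc (Cm (p + d)) f q v₀ r)
    (hy : f (q v₀) ∉ S) : volume {v | v ∈ ball v₀ r ∧ q v ∈ u '' excSet (Cm (p + d)) u ∧
      ∀ ξ, mfderiv 𝓘(ℂ, Cm d) 𝓘(ℂ, Cm (p + d)) q v ξ = 0 → ξ = 0} = 0 := by
  rcases le_or_gt r 0 with hr | hr
  · rw [ball_eq_empty.2 hr]
    simp
  have hf₁ : ContMDiff 𝓘(ℂ, Cm (p + d)) 𝓘(ℂ, Cm p) ω (fun z => f (u z)) := hC.hf₁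
  obtain ⟨E₁, Γ₁, _, _, _, _, _, _, 𝓕₁, Qm₁, hM₁, ht₁, -⟩ :=
    ab p d X₁ Y (fun z => f (u z)) S hd hf₁ hP₁ _ hy
  obtain ⟨E, Γ, _, _, _, _, _, _, 𝓕, Qm, hM, ht, -⟩ := ab p d X Y f S hd hC.hf hP _ hy
  obtain ⟨q', hqq, hpoly⟩ := lift_polyM hM (mem_chart_source _ _) ht hq rfl hr
  refine null_slice' hM ht (N := u '' excSet (Cm (p + d)) u) ?_ hpoly hqq
  exact hNull p d X Y f (mctx f u w) E Γ 𝓕 Qm _ E₁ Γ₁ 𝓕₁ Qm₁ _ _ _ hC hM hM₁ ht ht₁ (by
    show _ ∉ excSet (Cm p) (id : Y → Y)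
    rw [exc_id]
    exact notMem_empty _) rfl

/-- **KC1**: forms controlled by periods descend -/
theorem descM {V : Type} [NormedAddCommGroup V] [InnerProductSpace ℂ V] [FiniteDimensional ℂ V]
    {n m b t M s : ℕ} (hd : 0 < d) (hM0 : 0 < M) (har : HartogsStmt) (exc : ExcStmt) (ab : TK.ABStmt)
    (hNull : NullStmt) (hf : ContMDiff 𝓘(ℂ, Cm (p + d)) 𝓘(ℂ, Cm p) ω f)
    (hu : TZ.S.IsModif (Cm (p + d)) u) (hw : IsKahler w) {S : Set Y}
    (hP : IsProperFibration (n := p + d) (p := p) f S)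
    (hP₁ : IsProperFibration (n := p + d) (p := p) (fun z => f (u z)) S)
    {Q : (Fin n → ℝ) → (Fin n → ℝ) → ℝ} {B : Fin b → Matrix (Fin m) (Fin m) ℝ}
    {v : Fin b → Fin m → ℝ} {e : Fin b → ℕ} {ι : Type} {U : ι → Set Y}
    {π : ι → Y → ((Fin n → ℝ) ≃L[ℝ] V)} {P : ι → Y → Fin b → Fin m → ℂ}
    {η : ι → Fin t → X₁ → (Fin d → Cm (p + d)) → ℂ}
    (hF : IsPeriodForms (Cm (p + d)) (Cm p) (fun z => f (u z)) S 0 M (fun _ => 0) Q s B v e U π P η)
    (hN : NormO (E := Cm (p + d)) (E' := Cm p) (fun z => f (u z)) M Q s B e U π P η) :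
    ∃ η' : ι → Fin t → X → (Fin d → Cm (p + d)) → ℂ,
      IsPeriodForms (Cm (p + d)) (Cm p) f S 0 M (fun _ => 0) Q s B v e U π P η' := by
  have hM := H349.NF.mod_modif exc hu
  have hNs := exc (p + d) X X₁ u hu
  have hC := mctx_ok exc hf hu hw
  let e₀ : Cm (p + d) ≃L[ℂ] (Cm p × Cm d) := ContinuousLinearEquiv.ofFinrankEq (by simp)
  exact desc hM0 (fun x => hf x) hM (fun O g hO hg => har _ X _ O g hNs hO hg)
    (fun x hx => fc_of_subm e₀ (hP.submersive x hx))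
    (fun q v₀ r hq hy => null_poly hd ab hNull hC hP hP₁ hq hy)
    (fun y hy => (hP₁.connected y hy).isPreconnected) hF hN

end Vale.Agent.P281.H225.KC
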