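import Vale.Agent.P281.H225.KC.Fc

/-!
# P281, class C (helper225), KC: forms on a connected fibre which vanish on an open set
-/

open scoped Manifold ContDiff Topology ENNReal NNReal
open Set Filter Metric Module MeasureTheory

namespace Vale.Agent.P281.H225.KC

open Vale.Agent.P281 Vale.Agent.P281.MF Vale.Agent.P281.ISO Vale.Agent.P281.ELL
open Vale.Agent.P281.H713

set_option linter.unusedSectionVars false

universe u

section slice

variable {E E' E₀ : Type} [NormedAddCommGroup E] [NormedSpace ℂ E] [FiniteDimensional ℂ E]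
  [NormedAddCommGroup E'] [NormedSpace ℂ E'] [FiniteDimensional ℂ E']
  [NormedAddCommGroup E₀] [NormedSpace ℂ E₀] [FiniteDimensional ℂ E₀]
variable {X Y : Type u} [TopologicalSpace X] [ChartedSpace E X] [IsManifold 𝓘(ℂ, E) ω X]
  [TopologicalSpace Y] [ChartedSpace E' Y] [IsManifold 𝓘(ℂ, E') ω Y]

/-- Slices of a submersion. -/
theorem exists_slice' {f : X → Y} (hf : ∀ x, HolM E E' f x) (e₀ : E ≃L[ℂ] (E' × E₀)) {x₀ : X}
    {ζ : X → E₀} (hζ : HolV E ζ x₀)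
    (hinj : ∀ ξ, dM E E' f x₀ ξ = 0 → dV E ζ x₀ ξ = 0 → ξ = 0) :
    ∃ q : E₀ → X, ContMDiffAt 𝓘(ℂ, E₀) 𝓘(ℂ, E) ω q (ζ x₀) ∧ q (ζ x₀) = x₀ ∧
      (∀ᶠ p in 𝓝 (ζ x₀), f (q p) = f x₀ ∧ ζ (q p) = p) ∧
      ∀ᶠ z in 𝓝 x₀, f z = f x₀ → q (ζ z) = z := by
  have : CompleteSpace E := FiniteDimensional.complete ℂ E
  have : CompleteSpace E' := FiniteDimensional.complete ℂ E'
  have : CompleteSpace E₀ := FiniteDimensional.complete ℂ E₀
  set φ := chartAt E x₀ with hφ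
  set ψY := chartAt E' (f x₀) with hψY
  have hxs : x₀ ∈ φ.source := mem_chart_source E x₀
  have hys : f x₀ ∈ ψY.source := mem_chart_source E' (f x₀)
  have h1 : HolV E (fun z => ψY (f z)) x₀ :=
    HolV.comp (h := (ψY : Y → E')) (HolV.chart hys) (hf x₀)
  have hG1 : ContDiffAt ℂ ω ((fun z => ψY (f z)) ∘ φ.symm) (φ x₀) := h1.rep hxs
  have hG2 : ContDiffAt ℂ ω (ζ ∘ φ.symm) (φ x₀) := hζ.rep hxs
  set G : E → E' × E₀ := fun v => (ψY (f (φ.symm v)), ζ (φ.symm v)) with hG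
  have hGc : ContDiffAt ℂ ω G (φ x₀) := hG1.prodMk hG2
  set L₁ := fderiv ℂ ((fun z => ψY (f z)) ∘ φ.symm) (φ x₀) with hL₁
  set L₂ := fderiv ℂ (ζ ∘ φ.symm) (φ x₀) with hL₂
  have hGd : HasFDerivAt G (L₁.prod L₂) (φ x₀) :=
    (hG1.differentiableAt (by simp)).hasFDerivAt.prodMk
      (hG2.differentiableAt (by simp)).hasFDerivAt
  have d1 : (dV E' (ψY : Y → E') (f x₀)).comp (dM E E' f x₀) =
      L₁.comp (dV E (φ : X → E) x₀) := by
    have h9 := dV_comp (h := (ψY : Y → E')) (HolV.chart hys) (hf x₀)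
    rw [← h9]
    exact dV_eq_chart hxs h1
  have d2 : dV E ζ x₀ = L₂.comp (dV E (φ : X → E) x₀) := dV_eq_chart hxs hζ
  have hker : ∀ ξ, L₁ (dV E (φ : X → E) x₀ ξ) = 0 → dM E E' f x₀ ξ = 0 := by
    intro ξ hv1
    have e1 := congrArg (fun T : E →L[ℂ] E' => T ξ) d1
    simp only [ContinuousLinearMap.comp_apply] at e1
    rw [hv1] at e1
    obtain ⟨A₁, hA₁⟩ := dV_chart_leftInv (E := E') hys
    have := congrArg (fun T : E' →L[ℂ] E' => T (dM E E' f x₀ ξ)) hA₁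
    simp only [ContinuousLinearMap.comp_apply, ContinuousLinearMap.id_apply] at this
    rw [← this, e1, map_zero]
  have hinj' : Function.Injective (L₁.prod L₂) := by
    rw [injective_iff_map_eq_zero]
    intro v hv
    obtain ⟨ξ, rfl⟩ := dV_chart_surj (E := E) hxs v
    have hv1 : L₁ (dV E (φ : X → E) x₀ ξ) = 0 := (Prod.mk.inj hv).1
    have hv2 : L₂ (dV E (φ : X → E) x₀ ξ) = 0 := (Prod.mk.inj hv).2
    have e4 : dV E ζ x₀ ξ = 0 := by
      rw [d2]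
      exact hv2
    rw [hinj ξ (hker ξ hv1) e4, map_zero]
  have hbij : Function.Bijective ((L₁.prod L₂ : E →L[ℂ] (E' × E₀)) : E →ₗ[ℂ] (E' × E₀)) := by
    refine ⟨hinj', ?_⟩
    have h3 : Function.Injective (((L₁.prod L₂ : E →L[ℂ] (E' × E₀)) : E →ₗ[ℂ] (E' × E₀)) ∘ₗ
        (e₀.symm.toLinearEquiv : (E' × E₀) →ₗ[ℂ] E)) := hinj'.comp e₀.symm.injective
    have h4 := LinearMap.surjective_of_injective h3
    intro w
    obtain ⟨v, hv⟩ := h4 w
    exact ⟨e₀.symm v, hv⟩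
  let L : E ≃L[ℂ] (E' × E₀) := (LinearEquiv.ofBijective _ hbij).toContinuousLinearEquiv
  have hL : (L : E →L[ℂ] (E' × E₀)) = L₁.prod L₂ := by ext v <;> rfl
  have hGd' : HasFDerivAt G (L : E →L[ℂ] (E' × E₀)) (φ x₀) := by rw [hL]; exact hGd
  have hn : (ω : WithTop ℕ∞) ≠ 0 := by simp
  set R := hGc.localInverse hGd' hn with hR
  have hRc : ContDiffAt ℂ ω R (G (φ x₀)) := hGc.to_localInverse hGd' hn
  have hstr : HasStrictFDerivAt G (L : E →L[ℂ] (E' × E₀)) (φ x₀) :=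
    hGc.hasStrictFDerivAt' hGd' hn
  have hRr : ∀ᶠ w in 𝓝 (G (φ x₀)), G (R w) = w := hstr.eventually_right_inverse
  have hR0 : R (G (φ x₀)) = φ x₀ := hstr.eventually_left_inverse.self_of_nhds
  have hG0 : G (φ x₀) = (ψY (f x₀), ζ x₀) := by
    simp only [hG, φ.left_inv hxs]
  set γ : E₀ → E := fun p => R (ψY (f x₀), p) with hγ
  have hγ0 : γ (ζ x₀) = φ x₀ := by
    simp only [hγ]
    rw [← hG0, hR0]
  have hγc : ContDiffAt ℂ ω γ (ζ x₀) := by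
    have h2 : ContDiffAt ℂ ω R (ψY (f x₀), ζ x₀) := by rw [← hG0]; exact hRc
    exact h2.comp (ζ x₀) (contDiffAt_const.prodMk contDiffAt_id)
  have hsymm : ContMDiffAt 𝓘(ℂ, E) 𝓘(ℂ, E) ω φ.symm (φ x₀) :=
    contMDiffOn_chart_symm.contMDiffAt (φ.open_target.mem_nhds (φ.map_source hxs))
  refine ⟨fun p => φ.symm (γ p), ?_, ?_, ?_, ?_⟩
  · have h2 : ContMDiffAt 𝓘(ℂ, E₀) 𝓘(ℂ, E) ω γ (ζ x₀) := contMDiffAt_iff_contDiffAt.2 hγc
    have h3 : ContMDiffAt 𝓘(ℂ, E) 𝓘(ℂ, E) ω φ.symm (γ (ζ x₀)) := by rw [hγ0]; exact hsymm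
    exact ContMDiffAt.comp (ζ x₀) h3 h2
  · show φ.symm (γ (ζ x₀)) = x₀
    rw [hγ0, φ.left_inv hxs]
  · have hγt : Tendsto γ (𝓝 (ζ x₀)) (𝓝 (φ x₀)) := by
      have := hγc.continuousAt.tendsto
      rwa [hγ0] at this
    have hz : Tendsto (fun p => φ.symm (γ p)) (𝓝 (ζ x₀)) (𝓝 x₀) := (tendsto_symm x₀).comp hγt
    have hpairc : Tendsto (fun p : E₀ => (ψY (f x₀), p)) (𝓝 (ζ x₀)) (𝓝 (G (φ x₀))) := by
      rw [hG0]
      exact (continuous_const.prodMk continuous_id).tendsto _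
    filter_upwards [hpairc.eventually hRr,
      hz.eventually ((hf x₀).continuousAt.eventually (ψY.open_source.mem_nhds hys))] with p h3 h4
    have h7 : ψY (f (φ.symm (γ p))) = ψY (f x₀) := (Prod.mk.inj h3).1
    have h8 : ζ (φ.symm (γ p)) = p := (Prod.mk.inj h3).2
    exact ⟨ψY.injOn h4 hys h7, h8⟩
  · have h2 : ∀ᶠ v in 𝓝 (φ x₀), R (G v) = v := hstr.eventually_left_inverse
    filter_upwards [(φ.continuousAt hxs).eventually h2, φ.open_source.mem_nhds hxs] with z a b hz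
    have h3 : G (φ z) = (ψY (f x₀), ζ z) := by
      simp only [hG, φ.left_inv b, hz]
    rw [h3] at a
    show φ.symm (R (ψY (f x₀), ζ z)) = z
    rw [a, φ.left_inv b]

end slice

variable {E E' : Type} [NormedAddCommGroup E] [NormedSpace ℂ E] [FiniteDimensional ℂ E]
  [NormedAddCommGroup E'] [NormedSpace ℂ E'] [FiniteDimensional ℂ E']
variable {X Y : Type u} [TopologicalSpace X] [ChartedSpace E X] [IsManifold 𝓘(ℂ, E) ω X]
  [TopologicalSpace Y] [ChartedSpace E' Y] [IsManifold 𝓘(ℂ, E') ω Y]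
variable {d t : ℕ} {f : X → Y} {M : ℕ}

/-- **identity theorem on a fibre** -/
theorem fib_id (hf : ∀ x, HolM E E' f x) (e₀ : E ≃L[ℂ] (E' × (Fin d → ℂ))) {y : Y}
    (hconn : IsPreconnected (f ⁻¹' {y})) {η : Fin t → X → (Fin d → E) → ℂ}
    (h : ∀ x, f x = y → LocF E E' f M η x) (i : Fin t) {N : Set X} (hN : IsClosed N)
    (hne : ∃ x, f x = y ∧ x ∉ N)
    (h1 : ∃ x ξ, f x = y ∧ IsVertical E E' f x ξ ∧ η i x ξ ≠ 0) :
    ∃ x ξ, f x = y ∧ x ∉ N ∧ IsVertical E E' f x ξ ∧ η i x ξ ≠ 0 := by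
  by_contra hcon
  push Not at hcon
  set A : Set X := {x | ∀ᶠ z in 𝓝 x, f z = y → ∀ ξ, IsVertical E E' f z ξ → η i z ξ = 0} with hA
  have hAo : IsOpen A := isOpen_setOf_eventually_nhds
  have key : ∀ x, f x = y → x ∈ closure (A ∩ f ⁻¹' {y}) → x ∈ A := by
    intro x hx hcl
    obtain ⟨ζ, c, hζ, hc, hev⟩ := h x hx
    obtain ⟨q, hq, hq0, hqe, hqz⟩ := exists_slice' hf e₀ (holV_vec hζ.1) (fc_inj hζ)
    have hO : ∀ᶠ z in 𝓝 x, (∀ i ξ, IsVertical E E' f z ξ → η i z ξ = c i z * De E ζ z ξ ^ M) ∧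
        IsFibreChart E E' f ζ z ∧ HolV E (c i) z :=
      hev.and ((fc_near hf e₀ hζ).and (hc i).eventually)
    have hqt : Tendsto q (𝓝 (vec ζ x)) (𝓝 x) := by
      have := hq.continuousAt.tendsto
      rwa [hq0] at this
    have hq' : ∀ᶠ p in 𝓝 (vec ζ x), ContMDiffAt 𝓘(ℂ, Fin d → ℂ) 𝓘(ℂ, E) ω q p :=
      (contMDiffAt_iff_contMDiffAt_nhds (by simp)).1 hq
    obtain ⟨r, hr, hball⟩ := Metric.eventually_nhds_iff_ball.1 (hqe.and (hq'.and (hqt.eventually hO)))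
    have hζc : ContinuousAt (vec ζ) x := (holV_vec hζ.1).continuousAt
    have h2 : ∀ᶠ z in 𝓝 x, vec ζ z ∈ ball (vec ζ x) r ∧ (f z = f x → q (vec ζ z) = z) :=
      (hζc.eventually (ball_mem_nhds _ hr)).and hqz
    obtain ⟨a, ⟨haA, haF⟩, ha1, ha2⟩ := (mem_closure_iff_frequently.1 hcl).and_eventually h2 |>.exists
    have haF' : f a = y := haF
    have haq : q (vec ζ a) = a := ha2 (by rw [haF', hx])
    have hz0 : ∀ p ∈ ball (vec ζ x) r, (∀ ξ, IsVertical E E' f (q p) ξ → η i (q p) ξ = 0) →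
        c i (q p) = 0 := by
      intro p hp h3
      obtain ⟨-, -, b1, b2, -⟩ := hball p hp
      obtain ⟨b3, b4⟩ := FR_spec e₀ b2
      have h4 := b1 i _ b3
      rw [h3 _ b3, b4, one_pow, mul_one] at h4
      exact h4.symm
    have hcq : ∀ p ∈ ball (vec ζ x) r, ContDiffAt ℂ ω (fun p => c i (q p)) p := by
      intro p hp
      obtain ⟨-, b0, -, -, b5⟩ := hball p hp
      exact contMDiffAt_iff_contDiffAt.1 (ContMDiffAt.comp p (g := c i) (f := q) b5 b0)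
    have han : AnalyticOnNhd ℂ (fun p => c i (q p)) (ball (vec ζ x) r) := fun p hp =>
      (hcq p hp).analyticAt
    have hev0 : (fun p => c i (q p)) =ᶠ[𝓝 (vec ζ a)] 0 := by
      obtain ⟨-, b0, -, -, -⟩ := hball _ ha1
      have h3 : Tendsto q (𝓝 (vec ζ a)) (𝓝 a) := by
        have := b0.continuousAt.tendsto
        rwa [haq] at this
      filter_upwards [h3.eventually haA, isOpen_ball.mem_nhds ha1] with p b1 b2
      refine hz0 p b2 (b1 ?_)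
      rw [(hball p b2).1.1, hx]
    have hz := han.eqOn_zero_of_preconnected_of_eventuallyEq_zero
      (convex_ball (vec ζ x) r).isPreconnected ha1 hev0
    show ∀ᶠ z in 𝓝 x, f z = y → ∀ ξ, IsVertical E E' f z ξ → η i z ξ = 0
    filter_upwards [h2, hO] with z b1 b2 hzy ξ hξ
    have h3 := hz b1.1
    have h4 : c i (q (vec ζ z)) = 0 := h3
    rw [b1.2 (by rw [hzy, hx])] at h4
    rw [b2.1 i ξ hξ, h4, zero_mul]
  obtain ⟨x₀, hx₀, hx₀N⟩ := hne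
  have hx₀A : x₀ ∈ A := by
    show ∀ᶠ z in 𝓝 x₀, f z = y → ∀ ξ, IsVertical E E' f z ξ → η i z ξ = 0
    filter_upwards [hN.isOpen_compl.mem_nhds hx₀N] with z hz hzy ξ hξ
    exact hcon z ξ hzy hz hξ
  obtain ⟨x₁, ξ₁, hx₁, hξ₁, hη⟩ := h1
  have hx₁A : x₁ ∈ A := by
    by_contra hx₁A
    have hB : x₁ ∈ (closure (A ∩ f ⁻¹' {y}))ᶜ := fun h2 => hx₁A (key x₁ hx₁ h2)
    obtain ⟨z, hzF, hzA, hzB⟩ := hconn A (closure (A ∩ f ⁻¹' {y}))ᶜ hAo isClosed_closure.isOpen_compl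
      (fun z hz => by
        by_cases h2 : z ∈ closure (A ∩ f ⁻¹' {y})
        · exact Or.inl (key z hz h2)
        · exact Or.inr h2) ⟨x₀, hx₀, hx₀A⟩ ⟨x₁, hx₁, hB⟩
    exact hzB (subset_closure ⟨hzA, hzF⟩)
  exact hη (hx₁A.self_of_nhds hx₁ ξ₁ hξ₁)

end Vale.Agent.P281.H225.KC
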